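import Crest.Agent.X261.Cov.E
import Crest.Agent.X261.BT.Part
import Crest.Agent.R281.KpK_487

/-!
# X261, package COV (helper3), part K: potentials on coverings (bridge to the package BT)

* `pbKP hp R H` : pull-back of local potentials along a holomorphic map, `qp_pb`;
* `pullKP D F H : KP (D.atl F)`, `pos_pull`, `kah_pull`, `slow_pull`, `iso_over`, `iso_deck`;
* `qp_cmap`, `qp_pr`, `qp_deck`, `pp_deck`, `qp_of_cmap`, `qp_desc`;
* `Tame.lv`, `Tame.bt` : the bounds of part C in the language of `lvE`;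
* `exists_setting` : a finite good refinement with potentials of a given Kaehler metric.
-/

set_option autoImplicit false
set_option linter.unusedSectionVars false

open Set Filter Topology Complex
open scoped ContDiff Matrix ComplexConjugate ComplexOrder

namespace Crest.Agent.X261.Cov.K

open Crest.Agent.R275.Geo Crest.Agent.R275.EDR890 Crest.Agent.R275.GC293
open Crest.Agent.R273.UCov_914 Crest.Agent.R273.Map_835
open Crest.Agent.R273.Kah_333 Crest.Agent.R273.Hess_333 Crest.Agent.R273.HessB_333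
open Crest.Agent.R273.PB_835 (Ref LBih)
open Crest.Agent.R273.RMan4_798 (pullKah)
open Crest.Agent.R273.YauDefs_635 (inC)
open Crest.Agent.R273.YauCh_635 (two_le_inf)
open Crest.Agent.R281.Rich_710 (PshL lev_eq_lvE)
open Crest.Agent.R281.Kp_487 (KP pot cur kah wt_contDiffAt uj_contDiffAt)
open Crest.Agent.R257.HoB_843 (lvE)
open Crest.Agent.R257.Glue2_101 (lvE_add lvE_const_mul)
open Crest.Agent.X277.AN (qf gq gf)
open Crest.Agent.X261.BT (QP PP Slow Iso sc ad zr chU ovI)
open Crest.Agent.X261.Cov.A Crest.Agent.X261.Cov.B Crest.Agent.X261.Cov.C Crest.Agent.X261.Cov.E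

noncomputable section

theorem contAt_of_open {α β γ : Type*} [TopologicalSpace α] [TopologicalSpace β]
    [TopologicalSpace γ] {f : α → β} (hf : IsOpenMap f) {x : α} (hc : ContinuousAt f x)
    {g : β → γ} (h : ContinuousAt (fun y => g (f y)) x) : ContinuousAt g (f x) := by
  rw [ContinuousAt, ← hf.map_nhds_eq hc, tendsto_map'_iff]
  exact h

/-! ### the Levi form and the matrices -/

section lv

variable {n : ℕ} {M : Type} [TopologicalSpace M] {B : Atl n M}

theorem lvE_eq_qf {u : Cn n → ℝ} {z : Cn n} (hu : ContDiffAt ℝ ∞ u z) (v : Cn n) :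
    lvE u z v = qf (hess u z) fun a => v a := by
  have h1 : qf (hess u z) (fun a => v a) = R273.Defs_333.lev u z v / 4 := hq_re hu v
  rw [h1, lev_eq_lvE]
  ring

theorem hess_eq_zero {u : Cn n → ℝ} {z : Cn n} (hu : ContDiffAt ℝ ∞ u z)
    (h : ∀ v, lvE u z v = 0) : hess u z = 0 := by
  have h1 := (BT.psd_iff hu).2 fun v => (h v).ge
  have h2 := (BT.psd_iff (contDiffAt_const.mul hu : ContDiffAt ℝ ∞ (fun w => -1 * u w) z)).2
    fun v => by rw [lvE_const_mul hu, h v, mul_zero]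
  rw [hess_const_mul (-1) hu] at h2
  refine h1.trace_eq_zero_iff.1 (le_antisymm ?_ h1.trace_nonneg)
  have h3 := h2.trace_nonneg
  rw [Matrix.trace_smul] at h3
  simpa using h3

theorem lvE_inC {u : M → ℝ} (hu : B.Sm u) {i : B.ι} {z : Cn n} (hz : z ∈ (B.e i).target)
    (v : Cn n) : lvE (inC B i u) z v = qf (hsf B u i ((B.e i).symm z)) fun a => v a := by
  rw [hsf_read u i hz]
  exact lvE_eq_qf (BT.sm_at hu i hz) v

theorem lvE_wt (H : KP B) {i : B.ι} {z : Cn n} (hz : z ∈ (B.e i).target) (v : Cn n) :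
    lvE (H.wt i) z v = qf (cur H i ((B.e i).symm z)) fun a => v a := by
  rw [R281.Kp_487.cur_read H i hz]
  exact lvE_eq_qf (wt_contDiffAt H i hz) v

theorem _root_.Crest.Agent.X261.Cov.C.Tame.lv {H : KP B} {hH : H.Pos} {u : M → ℝ} {c c' : ℝ}
    (h : Tame (kah H hH) u c c') {i : B.ι} {z : Cn n} (hz : z ∈ (B.e i).target) (v : Cn n) :
    |lvE (inC B i u) z v| ≤ c * lvE (H.wt i) z v ∧
      (fderiv ℝ (inC B i u) z v) ^ 2 ≤ 4 * c' * lvE (H.wt i) z v := by
  have hx := (B.e i).map_target hz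
  rw [lvE_inC h.sm hz, lvE_wt H hz]
  refine ⟨h.hs i _ hx _, ?_⟩
  have h1 := h.gr i _ hx fun a => v a
  have h2 := abs_fderiv_le ((BT.sm_at h.sm i hz).differentiableAt (by simp)) v
  have h3 := pow_le_pow_left₀ (abs_nonneg _) h2 2
  rw [sq_abs, mul_pow] at h3
  unfold gq gf at h1
  rw [(B.e i).right_inv hz] at h1
  have h4 : (kah H hH).g = cur H := rfl
  rw [h4] at h1
  have h5 : inC B i u = fun z => u ((B.e i).symm z) := rfl
  rw [h5] at h3 ⊢
  linarith

/-- a tame function and its opposite are quasi-psh -/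
theorem _root_.Crest.Agent.X261.Cov.C.Tame.bt {H : KP B} {hH : H.Pos} {u : M → ℝ} {c c' : ℝ}
    (h : Tame (kah H hH) u c c') {t : ℝ} (ht : |t| ≤ 1) : QP (sc c H) univ fun x => t * u x := by
  refine ⟨isOpen_univ, (continuous_const.mul (BT.sm_cont h.sm)).continuousOn, fun i =>
    BT.PL.of_lvE (BT.isOpen_chU isOpen_univ i) fun z hz => ?_⟩
  have c1 := wt_contDiffAt H i hz.1
  have c2 := BT.sm_at h.sm i hz.1
  have e : pot (sc c H) (fun x => t * u x) i = fun w => c * H.wt i w + t * inC B i u w := rfl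
  rw [e]
  refine ⟨((contDiffAt_const.mul c1).add (contDiffAt_const.mul c2)).of_le two_le_inf, fun v => ?_⟩
  rw [lvE_add (contDiffAt_const.mul c1) (contDiffAt_const.mul c2), lvE_const_mul c1,
    lvE_const_mul c2]
  have h1 := (h.lv hz.1 v).1
  have h2 : |t * lvE (inC B i u) z v| ≤ |lvE (inC B i u) z v| := by
    rw [abs_mul]
    exact mul_le_of_le_one_left (abs_nonneg _) ht
  linarith [(abs_le.1 (h2.trans h1)).1]

theorem slow_of_tame {H : KP B} (hH : H.Pos) (h : ∀ Z : Set M, IsCompact Z → ∀ ε > (0 : ℝ),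
    ∃ χ : M → ℝ, Tame (kah H hH) χ ε ε ∧ HasCompactSupport χ ∧ (∀ e, 0 ≤ χ e ∧ χ e ≤ 1) ∧
      ∀ e ∈ Z, χ e = 1) : Slow H := by
  intro Z hZ ε hε
  obtain ⟨χ, h1, h2, h3, h4⟩ := h Z hZ (ε / 4) (by positivity)
  refine ⟨χ, h1.sm, h2, h3, h4, fun i z hz v => ?_⟩
  obtain ⟨h5, h6⟩ := h1.lv hz v
  have h7 := BT.semi_lvE (BT.pos_semi hH) i hz v
  exact ⟨h5.trans (mul_le_mul_of_nonneg_right (by linarith) h7), h6.trans (le_of_eq (by ring))⟩

end lv

/-! ### pull-back along a holomorphic map -/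

section pb

variable {n m : ℕ} {M N : Type} [TopologicalSpace M] [TopologicalSpace N]
variable {A : Atl n M} {B : Atl m N} {p : M → N}

theorem rd_at (hp : HolMap A B p) {i : A.ι} {j : B.ι} {z : Cn n} (hz : z ∈ dm A B p i j) :
    ContDiffAt ℂ ∞ (rd A B p i j) z := (hp.analyticAt hz).contDiffAt

theorem ref_dm (R : Ref A B p) {i : A.ι} {z : Cn n} (hz : z ∈ (A.e i).target) :
    z ∈ dm A B p i (R.r i) := ⟨hz, R.sub i _ ((A.e i).map_target hz)⟩

/-- a function read through the chart `j` of the target -/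
theorem read_ev {W : Type*} (hp : HolMap A B p) (f : N → W) {i : A.ι} {j : B.ι} {z : Cn n}
    (hz : z ∈ dm A B p i j) : (fun w => f (p ((A.e i).symm w))) =ᶠ[𝓝 z]
      fun w => f ((B.e j).symm (rd A B p i j w)) := by
  filter_upwards [(hp.isOpen_dm i j).mem_nhds hz] with w hw
  rw [R273.Map_835.rd, (B.e j).left_inv hw.2]

theorem lvE_pb (hp : HolMap A B p) {f : N → ℝ} {i : A.ι} {j : B.ι} {z : Cn n}
    (hz : z ∈ dm A B p i j) (hf : ContDiffAt ℝ ∞ (fun w => f ((B.e j).symm w)) (rd A B p i j z)) :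
    ContDiffAt ℝ ∞ (fun w => f (p ((A.e i).symm w))) z ∧ ∀ v,
      lvE (fun w => f (p ((A.e i).symm w))) z v =
        lvE (fun w => f ((B.e j).symm w)) (rd A B p i j z) (fderiv ℂ (rd A B p i j) z v) := by
  have h1 := read_ev hp f hz
  refine ⟨(hf.comp z ((rd_at hp hz).restrict_scalars ℝ)).congr_of_eventuallyEq h1, fun v => ?_⟩
  rw [← R257.HoB_843.lvE_comp ((rd_at hp hz).of_le two_le_inf) (hf.of_le two_le_inf)]
  exact R257.HoB_843.lvE_congr h1 v

/-- pull-back of local potentials -/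
def pbKP (hp : HolMap A B p) (R : Ref A B p) (H : KP B) : KP A where
  u i x := H.u (R.r i) (p x)
  sm i z hz := (lvE_pb hp (ref_dm R hz)
    (wt_contDiffAt H _ ((B.e _).map_source (ref_dm R hz).2))).1.contDiffWithinAt
  tr i j z hz := by
    have h0 := ref_dm R hz.1
    have h1 : rd A B p i (R.r i) z ∈ B.ov (R.r i) (R.r j) :=
      mem_ov (A := B) ⟨h0.2, R.sub j _ hz.2⟩
    have h2 := BT.kp_diff_smooth H h1
    obtain ⟨h3, h4⟩ := lvE_pb hp (f := fun y => H.u (R.r i) y - H.u (R.r j) y) h0 h2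
    refine hess_eq_zero h3 fun v => ?_
    rw [h4, lvE_eq_qf h2, H.tr _ _ _ h1]
    simp [qf]

theorem wt_pb (hp : HolMap A B p) (R : Ref A B p) (H : KP B) {i : A.ι} {z : Cn n}
    (hz : z ∈ (A.e i).target) : (pbKP hp R H).wt i z = H.wt (R.r i) (rd A B p i (R.r i) z) := by
  change H.u _ _ = H.u _ _
  rw [R273.Map_835.rd, (B.e _).left_inv (ref_dm R hz).2]

theorem lvE_wt_pb (hp : HolMap A B p) (R : Ref A B p) (H : KP B) {i : A.ι} {z : Cn n}
    (hz : z ∈ (A.e i).target) (v : Cn n) : lvE ((pbKP hp R H).wt i) z v =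
      lvE (H.wt (R.r i)) (rd A B p i (R.r i) z) (fderiv ℂ (rd A B p i (R.r i)) z v) :=
  (lvE_pb hp (ref_dm R hz) (wt_contDiffAt H _ ((B.e _).map_source (ref_dm R hz).2))).2 v

theorem semi_pb (hp : HolMap A B p) (R : Ref A B p) {H : KP B} (hH : H.Semipos) :
    (pbKP hp R H).Semipos := by
  intro i z hz v
  rw [lev_eq_lvE, lvE_wt_pb hp R H hz]
  have := BT.semi_lvE hH (R.r i) ((B.e _).map_source (ref_dm R hz).2)
    (fderiv ℂ (rd A B p i (R.r i)) z v)
  exact mul_nonneg (by norm_num) this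

theorem qp_pb (hp : HolMap A B p) (R : Ref A B p) {H : KP B} {U : Set N} {φ : N → ℝ}
    (h : QP H U φ) : QP (pbKP hp R H) (p ⁻¹' U) fun x => φ (p x) := by
  have ho := h.op.preimage hp.cont
  refine ⟨ho, h.cont.comp hp.cont.continuousOn fun _ hx => hx, fun i => ?_⟩
  have h1 := BT.PL.comp (T := rd A B p i (R.r i)) (BT.isOpen_chU ho i) (BT.isOpen_chU h.op _)
    (BT.contOn_pot h.cont (R.r i)) (h.psh _) fun z hz =>
      ⟨(rd_at hp (ref_dm R hz.1)).of_le two_le_inf, BT.mem_chU (ref_dm R hz.1).2 hz.2⟩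
  refine BT.PL.congr (BT.isOpen_chU ho i) h1 fun z hz => ?_
  rw [BT.pot_apply, BT.pot_apply, wt_pb hp R H hz.1, R273.Map_835.rd,
    (B.e _).left_inv (ref_dm R hz.1).2]

end pb

/-! ### coverings -/

variable {n : ℕ} {X : Type} [TopologicalSpace X] {A : Atl n X}
variable {G : Type} [Group G] (D : MonD A G) (F : Type) [MulAction G F]

/-- the lifted potentials -/
def pullKP (H : KP A) : KP (D.atl F) where
  u p e := H.u p.1 (D.pr e)
  sm p := H.sm p.1
  tr p q z hz := H.tr p.1 q.1 z (D.ov_sub p q hz)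

@[simp] theorem u_pull (H : KP A) (p : A.ι × F) (e : D.cov F) :
    (pullKP D F H).u p e = H.u p.1 (D.pr e) := rfl

theorem wt_pull (H : KP A) (p : A.ι × F) : (pullKP D F H).wt p = H.wt p.1 := rfl

theorem cur_pull (H : KP A) (p : A.ι × F) (e : D.cov F) :
    cur (pullKP D F H) p e = cur H p.1 (D.pr e) := rfl

theorem pos_pull {H : KP A} (hH : H.Pos) : (pullKP D F H).Pos := fun p => hH p.1

theorem semi_pull {H : KP A} (hH : H.Semipos) : (pullKP D F H).Semipos := fun p => hH p.1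

theorem sc_pull (c : ℝ) (H : KP A) : sc c (pullKP D F H) = pullKP D F (sc c H) := rfl

theorem ad_pull (H H' : KP A) : ad (pullKP D F H) (pullKP D F H') = pullKP D F (ad H H') := rfl

theorem zr_pull : zr (D.atl F) = pullKP D F (zr A) := rfl

theorem kah_pull {H : KP A} (hH : H.Pos) :
    kah (pullKP D F H) (pos_pull D F hH) = pullKah D F (kah H hH) := rfl

theorem slow_pull [CompactSpace X] [T2Space X] [Finite A.ι] [Countable F] (P : Part A) {H : KP A}
    (hH : H.Pos) : Slow (pullKP D F H) := by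
  refine slow_of_tame (pos_pull D F hH) fun Z hZ ε hε => ?_
  obtain ⟨χ, h1, h2, h3, h4⟩ := exists_cutoffF D (kah H hH) P hZ hε
  exact ⟨χ, h1, h2, h3, fun e he => (h4 e he).self_of_nhds⟩

variable {F}

/-- homeomorphisms over the base are isometries -/
theorem iso_over (H : KP A) (γ : D.cov F ≃ₜ D.cov F) (h : ∀ e, D.pr (γ e) = D.pr e) :
    Iso (pullKP D F H) γ := by
  have h' : ∀ e, D.pr (γ.symm e) = D.pr e := fun e => by rw [← h, γ.apply_symm_apply]
  have h1 : ∀ (δ : D.cov F → D.cov F), (∀ e, D.pr (δ e) = D.pr e) → ∀ p q : A.ι × F,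
      ovI (D.atl F) δ p q ⊆ A.ov p.1 q.1 := fun δ hδ p q z hz =>
    ⟨hz.1, by have := hz.2.1; rwa [hδ] at this⟩
  have h2 : ∀ (δ : D.cov F → D.cov F), (∀ e, D.pr (δ e) = D.pr e) → ∀ p q : A.ι × F,
      DifferentiableOn ℂ (fun z => (D.atl F).e q (δ (((D.atl F).e p).symm z)))
        (ovI (D.atl F) δ p q) := fun δ hδ p q => by
    simp only [MonD.atl_e, MonD.chart_apply, hδ]
    exact (A.holo p.1 q.1).mono (h1 δ hδ p q)
  refine ⟨h2 γ h, h2 γ.symm h', fun p q z hz => ?_⟩
  simp only [u_pull, h]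
  exact H.tr p.1 q.1 z (h1 γ h p q hz)

theorem iso_deck (H : KP A) (g : G) : Iso (pullKP D G H) (Homeomorph.smul g) :=
  iso_over D H _ fun _ => rfl

section cmap

variable {D} {G' : Type} [Group G'] {D' : MonD A G'} {F' : Type} [MulAction G' F'] {f : F → F'}
variable {H : KP A}

theorem pot_cmap (hf : Cpt D D' f) (φ : D'.cov F' → ℝ) (p : A.ι × F) :
    pot (pullKP D F H) (fun e => φ (cmap D D' f e)) p = pot (pullKP D' F' H) φ (p.1, f p.2) := by
  funext z
  rw [BT.pot_apply, BT.pot_apply, congrFun (read_cmap hf φ p) z]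
  rfl

theorem chU_cmap (hf : Cpt D D' f) (U : Set (D'.cov F')) (p : A.ι × F) :
    chU (D.atl F) (cmap D D' f ⁻¹' U) p = chU (D'.atl F') U (p.1, f p.2) := by
  ext z
  exact and_congr Iff.rfl (iff_of_eq (congrFun (read_cmap hf (fun e => e ∈ U) p) z))

theorem qp_cmap (hf : Cpt D D' f) {U : Set (D'.cov F')} {φ : D'.cov F' → ℝ}
    (h : QP (pullKP D' F' H) U φ) :
    QP (pullKP D F H) (cmap D D' f ⁻¹' U) fun e => φ (cmap D D' f e) :=
  ⟨h.op.preimage (continuous_cmap hf), h.cont.comp (continuous_cmap hf).continuousOn fun _ h => h,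
    fun p => by rw [pot_cmap hf, chU_cmap hf]; exact h.psh _⟩

theorem qp_of_cmap (hf : Cpt D D' f) (hs : Function.Surjective f) {U : Set (D'.cov F')}
    {φ : D'.cov F' → ℝ} (h : QP (pullKP D F H) (cmap D D' f ⁻¹' U) fun e => φ (cmap D D' f e)) :
    QP (pullKP D' F' H) U φ := by
  have hq := (isOpenMap_cmap hf).isQuotientMap (continuous_cmap hf) (surjective_cmap hf hs)
  refine ⟨hq.isOpen_preimage.1 h.op, fun e he => ?_, fun p => ?_⟩
  · obtain ⟨e', rfl⟩ := surjective_cmap hf hs e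
    have h1 := h.cont.continuousAt (h.op.mem_nhds he)
    exact (contAt_of_open (isOpenMap_cmap hf) (continuous_cmap hf).continuousAt
      h1).continuousWithinAt
  · obtain ⟨v, hv⟩ := hs p.2
    have h1 := h.psh (p.1, v)
    rwa [pot_cmap hf, chU_cmap hf, hv] at h1

end cmap

theorem qp_pr {H : KP A} {U : Set X} {φ : X → ℝ} (h : QP H U φ) :
    QP (pullKP D F H) (D.pr ⁻¹' U) fun e => φ (D.pr e) :=
  ⟨h.op.preimage D.continuous_pr, h.cont.comp D.continuous_pr.continuousOn fun _ h => h,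
    fun p => h.psh p.1⟩

theorem qp_of_pr [Nonempty F] {H : KP A} {U : Set X} {φ : X → ℝ}
    (h : QP (pullKP D F H) (D.pr ⁻¹' U) fun e => φ (D.pr e)) : QP H U φ := by
  obtain ⟨v⟩ := ‹Nonempty F›
  have hs : Function.Surjective (D.pr (F := F)) := fun x => ⟨D.pt (A.cover x).choose v x, rfl⟩
  have hq := D.isLocalHomeomorph.isOpenMap.isQuotientMap D.continuous_pr hs
  refine ⟨hq.isOpen_preimage.1 h.op, fun e he => ?_, fun i => h.psh (i, v)⟩
  obtain ⟨e', rfl⟩ := hs e
  exact (contAt_of_open D.isLocalHomeomorph.isOpenMap D.continuous_pr.continuousAt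
    (h.cont.continuousAt (h.op.mem_nhds he))).continuousWithinAt

theorem cpt_rmul (g : G) : Cpt D D (fun v : G => v * g⁻¹) := fun _ _ _ _ => mul_assoc _ _ _

theorem deck_eq_cmap (g : G) (e : D.cov G) : g • e = cmap D D (fun v : G => v * g⁻¹) e := rfl

theorem qp_deck {H : KP A} {U : Set (D.cov G)} {φ : D.cov G → ℝ} (h : QP (pullKP D G H) U φ)
    (g : G) : QP (pullKP D G H) ((g • ·) ⁻¹' U) fun e => φ (g • e) := qp_cmap (cpt_rmul D g) h

theorem pp_deck {H : KP A} {φ : D.cov G → ℝ} (h : PP (pullKP D G H) φ) (g : G) :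
    PP (pullKP D G H) fun e => φ (g • e) :=
  ⟨qp_deck D h.qp g, h.cpt.comp_homeomorph (Homeomorph.smul g)⟩

theorem qp_desc {H : KP A} {φ : D.cov G → ℝ} (h : QP (pullKP D G H) univ φ)
    (hi : ∀ (g : G) e, φ (g • e) = φ e) : QP H univ (D.desc φ) := by
  refine qp_of_pr D (F := G) ?_
  simpa only [D.desc_pr hi, preimage_univ] using h

/-! ### the setting -/

/-- a finite good refinement carrying potentials of the Kaehler metric `K` -/
theorem exists_setting [CompactSpace X] [T2Space X] (K : Kah A) :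
    ∃ (A' : Atl n X) (_ : Finite A'.ι) (H : KP A'), GoodA A' ∧ Nonempty (Part A') ∧
      Nonempty (Ref A' A id) ∧ LBih A' A id ∧ LBih A A' id ∧ H.Pos ∧
      ∀ (k : A'.ι) (i : A.ι) (y : X), y ∈ (A'.e k).source → y ∈ (A.e i).source →
        cur H k y = (Jp A' A id k i y)ᵀ * K.g i y * (Jp A' A id k i y).map conj := by
  obtain ⟨A1, H, -, -, -, h1, h2, h3⟩ := R281.KpK_487.exists_kp K
  obtain ⟨A', hf, hG, hP, hs, ⟨R⟩, l1, l2⟩ := R273.Fam_835.exists_refine A1
    (fun i => (A.e i).source) (fun i => (A.e i).open_source) A.cover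
  choose r hr using hs
  have m1 : LBih A' A id := h1.comp l1
  have key : ∀ (k : A'.ι) (i : A.ι) (y : X), y ∈ (A'.e k).source → y ∈ (A.e i).source →
      cur (pbKP l1.toHolMap R H) k y =
        (Jp A' A id k i y)ᵀ * K.g i y * (Jp A' A id k i y).map conj := by
    intro k i y hk hi
    have hj : y ∈ (A1.e (R.r k)).source := R.sub k y hk
    have e1 := R281.KpK_487.hess_rd l1.toHolMap hk hj
      (wt_contDiffAt H _ ((A1.e _).map_source hj))
    have e2 : cur (pbKP l1.toHolMap R H) k y =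
        hess (fun w => H.wt (R.r k) (rd A' A1 id k (R.r k) w)) (A'.e k y) := by
      refine hess_congr ?_
      filter_upwards [(A'.e k).open_target.mem_nhds ((A'.e k).map_source hk)] with w hw
      exact wt_pb l1.toHolMap R H hw
    have e3 : Jp A1 A id (R.r k) i y * Jp A' A1 id k (R.r k) y = Jp A' A id k i y :=
      Jp_comp h1.toHolMap l1.toHolMap (i := k) (j := R.r k) (l := i) (x := y) hk hj hi
    have e4 : hess (H.wt (R.r k)) (A1.e (R.r k) y) = _ := h3 (R.r k) i y hj hi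
    rw [e2, e1, e4, ← e3, Matrix.transpose_mul, Matrix.map_mul (f := starRingEnd ℂ)]
    simp only [Matrix.mul_assoc]
  refine ⟨A', hf, pbKP l1.toHolMap R H, hG, hP, ⟨⟨r, fun k x hx => hr k hx⟩⟩, m1, l2.comp h2,
    R281.Kp_487.pos_of_cur fun k y hk => ?_, key⟩
  rw [key k (r k) y hk (hr k hk)]
  exact (R281.KpK_487.posDef_iff (m1.det k (r k) y hk (hr k hk))).2 (K.pos _ _ (hr k hk))

end

end Crest.Agent.X261.Cov.K
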