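import Crest.Agent.R273.EqvA_914
import Crest.Agent.R273.UCovE_914
import Crest.Prelude.Def_WordHyperbolic

/-!
# X261, package COV (helper3), part A: coverings attached to quotients of the fundamental group

* `push D φ : MonD A G'`   : the cocycle `φ ∘ c`;
* `cmap D D' f`            : the map of coverings induced by a map of fibres compatible with the
  cocycles (`Cpt D D' f`); `prj D φ : D.cov G → (push D φ).cov G'`;
* `qD hA x0 φ`             : the covering of a quotient `φ : π₁ → G`, path connected;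
* `gens D`                 : the finite symmetric set of values of the cocycle; it generates `G`
  when `D.cov G` is connected; `wl D` the word length.
-/

set_option autoImplicit false
set_option linter.unusedSectionVars false

open Set Filter Topology

namespace Crest.Agent.X261.Cov.A

open Crest.Agent.R275.Geo Crest.Agent.R275.ZC352 Crest.Agent.R275.GC293
open Crest.Agent.R273.UCov_914 Crest.Agent.R273.Map_835
open Crest.GroupTheory (wordLength)

noncomputable section

variable {n : ℕ} {X : Type} [TopologicalSpace X] {A : Atl n X}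
variable {G G' : Type} [Group G] [Group G']

/-! ### maps of coverings -/

/-- the cocycle pushed along a homomorphism -/
def push (D : MonD A G) (φ : G →* G') : MonD A G' where
  c i j x := φ (D.c i j x)
  c_self i x hx := by rw [D.c_self i x hx, map_one]
  c_mul i j k x hx := by rw [← map_mul, D.c_mul i j k x hx]
  c_loc i j x hx y hy := by rw [D.c_loc i j x hx y hy]

@[simp] theorem push_c (D : MonD A G) (φ : G →* G') (i j : A.ι) (x : X) :
    (push D φ).c i j x = φ (D.c i j x) := rfl

theorem push_push {G'' : Type} [Group G''] (D : MonD A G) (φ : G →* G') (ψ : G' →* G'') :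
    push (push D φ) ψ = push D (ψ.comp φ) := rfl

section cmap

variable (D : MonD A G) (D' : MonD A G') {F F' : Type} [MulAction G F] [MulAction G' F']

/-- a map of fibres compatible with the cocycles -/
def Cpt (f : F → F') : Prop := ∀ i j x v, f (D.c i j x • v) = D'.c i j x • f v

/-- the induced map of coverings -/
def cmap (f : F → F') (e : D.cov F) : D'.cov F' := ⟨e.1, toD (f (ofD (A := F) e.2))⟩

@[simp] theorem pr_cmap (f : F → F') (e : D.cov F) : D'.pr (cmap D D' f e) = D.pr e := rfl

variable {D D'}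

theorem co_cmap {f : F → F'} (hf : Cpt D D' f) (i : A.ι) (e : D.cov F) :
    D'.co i (cmap D D' f e) = f (D.co i e) := by
  change D'.c _ i e.1 • f (ofD (A := F) e.2) = f (D.c _ i e.1 • ofD (A := F) e.2)
  rw [hf]
  rfl

theorem cmap_pt {f : F → F'} (hf : Cpt D D' f) (i : A.ι) (v : F) (x : X) :
    cmap D D' f (D.pt i v x) = D'.pt i (f v) x := by
  change (⟨x, toD (f (D.c _ _ _ • v))⟩ : D'.cov F') = ⟨x, toD (D'.c _ _ _ • f v)⟩
  rw [hf]

theorem continuous_cmap {f : F → F'} (hf : Cpt D D' f) : Continuous (cmap D D' f) := by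
  rw [continuous_iff_continuousAt]
  intro e
  obtain ⟨i, hi⟩ := A.cover (D.pr e)
  have h1 : ContinuousAt (D'.pt i (f (D.co i e))) (D.pr e) :=
    (D'.continuousOn_pt i _).continuousAt ((A.e i).open_source.mem_nhds hi)
  have h2 : ContinuousAt (fun e' => D'.pt i (f (D.co i e)) (D.pr e')) e :=
    ContinuousAt.comp (f := D.pr) h1 D.continuous_pr.continuousAt
  refine h2.congr ?_
  filter_upwards [D.co_eventually hi] with e' he'
  rw [← he'.2, ← cmap_pt hf, D.pt_co he'.1]

theorem cmap_mem_sheet {f : F → F'} (hf : Cpt D D' f) {i : A.ι} {v : F} {e : D.cov F}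
    (he : e ∈ D.sheet i v) : cmap D D' f e ∈ D'.sheet i (f v) :=
  ⟨he.1, by rw [co_cmap hf, he.2]⟩

theorem surjective_cmap {f : F → F'} (hf : Cpt D D' f) (hs : Function.Surjective f) :
    Function.Surjective (cmap D D' f) := by
  intro e
  obtain ⟨i, hi⟩ := A.cover (D'.pr e)
  obtain ⟨v, hv⟩ := hs (D'.co i e)
  exact ⟨D.pt i v (D'.pr e), by rw [cmap_pt hf, hv, D'.pt_co hi]⟩

theorem injective_cmap {f : F → F'} (hf : Cpt D D' f) (hs : Function.Injective f) :
    Function.Injective (cmap D D' f) := by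
  intro e e' h
  obtain ⟨i, hi⟩ := A.cover (D.pr e)
  have h1 := congrArg D'.pr h
  refine D.ext_co hi h1 (hs ?_)
  rw [← co_cmap hf, ← co_cmap hf, h]

theorem holMap_cmap {f : F → F'} (hf : Cpt D D' f) :
    HolMap (D.atl F) (D'.atl F') (cmap D D' f) :=
  MonD.holMap_over (A := A) (B := D.atl F) (B' := D'.atl F') (π := D.pr) (π' := D'.pr)
    (r := fun p : A.ι × F => p.1) (r' := fun p : A.ι × F' => p.1)
    (fun _ _ hz => ⟨hz, rfl⟩) (fun _ _ he => ⟨he.1, rfl⟩) (continuous_cmap hf) fun _ => rfl

theorem isLocalHomeomorph_cmap {f : F → F'} (hf : Cpt D D' f) :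
    IsLocalHomeomorph (cmap D D' f) :=
  IsLocalHomeomorph.of_comp (g := D'.pr) (f := cmap D D' f) D.isLocalHomeomorph
    D'.isLocalHomeomorph (continuous_cmap hf)

theorem isOpenMap_cmap {f : F → F'} (hf : Cpt D D' f) : IsOpenMap (cmap D D' f) :=
  (isLocalHomeomorph_cmap hf).isOpenMap

/-- smooth functions pull back -/
theorem sm_cmap {W : Type*} [NormedAddCommGroup W] [NormedSpace ℝ W] {f : F → F'}
    (hf : Cpt D D' f) {u : D'.cov F' → W} (hu : (D'.atl F').Sm u) :
    (D.atl F).Sm (fun e => u (cmap D D' f e)) := by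
  intro p
  refine (hu (p.1, f p.2)).congr fun z _ => ?_
  change u (cmap D D' f (D.pt p.1 p.2 _)) = u (D'.pt p.1 (f p.2) _)
  rw [cmap_pt hf]

/-- local expression of a pulled back function -/
theorem read_cmap {W : Type*} {f : F → F'} (hf : Cpt D D' f) (u : D'.cov F' → W) (p : A.ι × F) :
    (fun z => u (cmap D D' f (((D.atl F).e p).symm z))) =
      fun z => u (((D'.atl F').e (p.1, f p.2)).symm z) := by
  funext z
  change u (cmap D D' f (D.pt p.1 p.2 _)) = u (D'.pt p.1 (f p.2) _)
  rw [cmap_pt hf]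

end cmap

/-! ### the projection onto the covering of a quotient -/

section prj

variable (D : MonD A G) (φ : G →* G')

theorem cpt_push : Cpt D (push D φ) (φ : G → G') := fun _ _ _ _ => map_mul φ _ _

/-- the projection -/
def prj (e : D.cov G) : (push D φ).cov G' := cmap D (push D φ) φ e

@[simp] theorem pr_prj (e : D.cov G) : (push D φ).pr (prj D φ e) = D.pr e := rfl

theorem co_prj (i : A.ι) (e : D.cov G) : (push D φ).co i (prj D φ e) = φ (D.co i e) :=
  co_cmap (cpt_push D φ) i e

theorem prj_pt (i : A.ι) (v : G) (x : X) : prj D φ (D.pt i v x) = (push D φ).pt i (φ v) x :=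
  cmap_pt (cpt_push D φ) i v x

theorem continuous_prj : Continuous (prj D φ) := continuous_cmap (cpt_push D φ)

theorem holMap_prj : HolMap (D.atl G) ((push D φ).atl G') (prj D φ) := holMap_cmap (cpt_push D φ)

theorem isOpenMap_prj : IsOpenMap (prj D φ) := isOpenMap_cmap (cpt_push D φ)

theorem prj_deck (g : G) (e : D.cov G) : prj D φ (g • e) = φ g • prj D φ e := by
  obtain ⟨i, hi⟩ := A.cover (D.pr e)
  refine (push D φ).ext_co (i := i) hi rfl ?_
  rw [co_prj, MonD.co_deck, MonD.co_deck, co_prj, map_mul, map_inv]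

theorem surjective_prj (hφ : Function.Surjective φ) : Function.Surjective (prj D φ) :=
  surjective_cmap (cpt_push D φ) hφ

theorem prj_eq_iff {e e' : D.cov G} : prj D φ e = prj D φ e' ↔ ∃ g ∈ φ.ker, g • e = e' := by
  constructor
  · intro h
    have h1 := congrArg (push D φ).pr h
    obtain ⟨g, rfl⟩ := D.exists_deck (e := e) (e' := e') h1
    refine ⟨g, ?_, rfl⟩
    rw [prj_deck] at h
    exact (push D φ).deck_free h.symm
  · rintro ⟨g, hg, rfl⟩
    rw [prj_deck, MonoidHom.mem_ker.1 hg, one_smul]

theorem connected_push [ConnectedSpace (D.cov G)] (hφ : Function.Surjective φ) :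
    ConnectedSpace ((push D φ).cov G') :=
  (surjective_prj D φ hφ).connectedSpace (continuous_prj D φ)

theorem pathConnected_push [PathConnectedSpace (D.cov G)] (hφ : Function.Surjective φ) :
    PathConnectedSpace ((push D φ).cov G') :=
  (surjective_prj D φ hφ).pathConnectedSpace (continuous_prj D φ)

end prj

/-- the covering with fibre `F` is a quotient of the covering with fibre `G` -/
theorem cpt_orb (D : MonD A G) {F : Type} [MulAction G F] (v : F) :
    Cpt D D (fun g : G => g • v) := fun _ _ _ _ => mul_smul _ _ _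

theorem connected_fib (D : MonD A G) [ConnectedSpace (D.cov G)] (F : Type) [MulAction G F]
    [MulAction.IsPretransitive G F] [Nonempty F] : ConnectedSpace (D.cov F) := by
  obtain ⟨v⟩ := ‹Nonempty F›
  exact (surjective_cmap (cpt_orb D v) fun w => MulAction.exists_smul_eq G v w).connectedSpace
    (continuous_cmap (cpt_orb D v))

/-! ### quotients of the fundamental group -/

section qD

variable [PathConnectedSpace X] (hA : GoodA A) (x0 : X)

/-- the cocycle of a quotient of the fundamental group -/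
def qD (φ : FundamentalGroup X x0 →* G) : MonD A G := push (uD hA x0) φ

theorem pathConnected_uD : PathConnectedSpace ((uD hA x0).cov (FundamentalGroup X x0)) :=
  pathConnected hA x0

theorem pathConnected_qD {φ : FundamentalGroup X x0 →* G} (hφ : Function.Surjective φ) :
    PathConnectedSpace ((qD hA x0 φ).cov G) :=
  have := pathConnected_uD hA x0
  pathConnected_push (uD hA x0) φ hφ

theorem connected_qD {φ : FundamentalGroup X x0 →* G} (hφ : Function.Surjective φ) :
    ConnectedSpace ((qD hA x0 φ).cov G) :=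
  have := pathConnected_qD hA x0 hφ
  inferInstance

end qD

/-! ### generators -/

section gens

variable (D : MonD A G)

/-- the values of the cocycle -/
def gens : Set G := {g | ∃ i j x, x ∈ (A.e i).source ∩ (A.e j).source ∧ g = D.c i j x}

theorem c_mem_gens {i j : A.ι} {x : X} (hi : x ∈ (A.e i).source) (hj : x ∈ (A.e j).source) :
    D.c i j x ∈ gens D := ⟨i, j, x, ⟨hi, hj⟩, rfl⟩

theorem c_inv {i j : A.ι} {x : X} (hi : x ∈ (A.e i).source) (hj : x ∈ (A.e j).source) :
    (D.c i j x)⁻¹ = D.c j i x := by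
  rw [inv_eq_iff_mul_eq_one, D.c_mul j i j x ⟨⟨hj, hi⟩, hj⟩, D.c_self j x hj]

theorem inv_mem_gens {g : G} (hg : g ∈ gens D) : g⁻¹ ∈ gens D := by
  obtain ⟨i, j, x, hx, rfl⟩ := hg
  rw [c_inv D hx.1 hx.2]
  exact c_mem_gens D hx.2 hx.1

theorem finite_gens [Finite A.ι] : (gens D).Finite := by
  have : gens D ⊆ ⋃ p : A.ι × A.ι,
      {g | ∃ x, x ∈ (A.e p.1).source ∩ (A.e p.2).source ∧ g = D.c p.1 p.2 x} := by
    rintro g ⟨i, j, x, h⟩
    exact mem_iUnion.2 ⟨(i, j), x, h⟩
  refine Set.Finite.subset (Set.finite_iUnion fun p => Set.Subsingleton.finite ?_) this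
  rintro g ⟨x, hx, rfl⟩ h ⟨y, hy, rfl⟩
  exact D.c_loc _ _ _ hx _ hy

theorem gens_push (φ : G →* G') : gens (push D φ) = φ '' gens D := by
  ext g
  constructor
  · rintro ⟨i, j, x, hx, rfl⟩
    exact ⟨_, ⟨i, j, x, hx, rfl⟩, rfl⟩
  · rintro ⟨_, ⟨i, j, x, hx, rfl⟩, rfl⟩
    exact ⟨i, j, x, hx, rfl⟩

/-- a property of sheet numbers which is stable under the generators holds everywhere -/
theorem of_stable {F : Type} [MulAction G F] [PreconnectedSpace (D.cov F)] [Nonempty X]
    {S : Set F} (hS : ∀ g ∈ gens D, ∀ v ∈ S, g • v ∈ S) (hne : S.Nonempty) : S = univ := by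
  obtain ⟨v0, hv0⟩ := hne
  obtain ⟨x0⟩ := ‹Nonempty X›
  obtain ⟨i0, hi0⟩ := A.cover x0
  let Z : Set (D.cov F) := {e | ∀ i, D.pr e ∈ (A.e i).source → D.co i e ∈ S}
  have h0 : ∀ (i : A.ι) (e : D.cov F), D.pr e ∈ (A.e i).source → D.co i e ∈ S → e ∈ Z := by
    intro i e hi h j hj
    rw [D.co_eq hi hj]
    exact hS _ (c_mem_gens D hi hj) _ h
  have hloc : ∀ e : D.cov F, ∀ᶠ e' in 𝓝 e, e' ∈ Z ↔ e ∈ Z := by
    intro e
    obtain ⟨i, hi⟩ := A.cover (D.pr e)
    filter_upwards [D.co_eventually hi] with e' he'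
    exact ⟨fun h => h0 i e hi (he'.2 ▸ h i he'.1), fun h => h0 i e' he'.1 (he'.2 ▸ h i hi)⟩
  have hclopen : IsClopen Z := by
    constructor
    · rw [← isOpen_compl_iff, isOpen_iff_mem_nhds]
      intro e he
      filter_upwards [hloc e] with e' he'
      exact fun h => he (he'.1 h)
    · rw [isOpen_iff_mem_nhds]
      intro e he
      filter_upwards [hloc e] with e' he'
      exact he'.2 he
  have huniv : Z = univ :=
    hclopen.eq_univ ⟨D.pt i0 v0 x0, h0 i0 _ hi0 (by rw [D.co_pt _ hi0]; exact hv0)⟩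
  refine eq_univ_of_forall fun v => ?_
  have h1 : D.pt i0 v x0 ∈ Z := huniv ▸ mem_univ _
  have h2 := h1 i0 hi0
  rwa [D.co_pt _ hi0] at h2

theorem closure_gens [ConnectedSpace (D.cov G)] : Subgroup.closure (gens D) = ⊤ := by
  obtain ⟨e⟩ := (inferInstance : Nonempty (D.cov G))
  have : Nonempty X := ⟨D.pr e⟩
  have h := of_stable D (F := G) (S := (Subgroup.closure (gens D) : Set G))
    (fun g hg v hv => Subgroup.mul_mem _ (Subgroup.subset_closure hg) hv) ⟨1, Subgroup.one_mem _⟩
  rw [eq_top_iff]
  intro g _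
  exact (h ▸ mem_univ g : g ∈ (Subgroup.closure (gens D) : Set G))

theorem fg [Finite A.ι] [ConnectedSpace (D.cov G)] : Group.FG G :=
  ⟨(finite_gens D).toFinset, by rw [Set.Finite.coe_toFinset]; exact closure_gens D⟩

theorem countable [Finite A.ι] [ConnectedSpace (D.cov G)] : Countable G := by
  obtain ⟨S, hS, φ, hφ⟩ := Group.fg_iff_exists_freeGroup_hom_surjective_finite.1 (fg D)
  have : Countable (FreeGroup S) := inferInstance
  exact hφ.countable

end gens

/-! ### word length -/

section wl

variable {S : Set G}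

theorem exists_word (hS : Subgroup.closure S = ⊤) (g : G) :
    ∃ l : List G, l.length = wordLength S g ∧ (∀ x ∈ l, x ∈ S ∨ x⁻¹ ∈ S) ∧ l.prod = g := by
  have hne : {n : ℕ | ∃ l : List G, l.length = n ∧ (∀ x ∈ l, x ∈ S ∨ x⁻¹ ∈ S) ∧
      l.prod = g}.Nonempty := by
    have hg : g ∈ Subgroup.closure S := by rw [hS]; trivial
    rw [← Subgroup.mem_toSubmonoid, Subgroup.closure_toSubmonoid] at hg
    obtain ⟨l, hl, hp⟩ := Submonoid.exists_list_of_mem_closure hg
    exact ⟨l.length, l, rfl, fun x hx => by simpa using hl x hx, hp⟩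
  exact Nat.sInf_mem hne

theorem wordLength_le {l : List G} (hl : ∀ x ∈ l, x ∈ S ∨ x⁻¹ ∈ S) :
    wordLength S l.prod ≤ l.length := Nat.sInf_le ⟨l, rfl, hl, rfl⟩

theorem wordLength_mul (hS : Subgroup.closure S = ⊤) (g h : G) :
    wordLength S (g * h) ≤ wordLength S g + wordLength S h := by
  obtain ⟨l, hl, hlS, rfl⟩ := exists_word hS g
  obtain ⟨m, hm, hmS, rfl⟩ := exists_word hS h
  rw [← hl, ← hm, ← List.prod_append, ← List.length_append]
  refine wordLength_le fun x hx => ?_
  rcases List.mem_append.1 hx with h | h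
  · exact hlS x h
  · exact hmS x h

theorem wordLength_inv_le (hS : Subgroup.closure S = ⊤) (g : G) :
    wordLength S g⁻¹ ≤ wordLength S g := by
  obtain ⟨l, hl, hlS, rfl⟩ := exists_word hS g
  rw [← hl, List.prod_inv_reverse]
  refine (wordLength_le fun x hx => ?_).trans (by simp)
  obtain ⟨y, hy, rfl⟩ := List.mem_map.1 (List.mem_reverse.1 hx)
  rw [inv_inv]
  exact (hlS y hy).symm

theorem wordLength_inv (hS : Subgroup.closure S = ⊤) (g : G) :
    wordLength S g⁻¹ = wordLength S g :=
  le_antisymm (wordLength_inv_le hS g) (by simpa using wordLength_inv_le hS g⁻¹)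

theorem wordLength_one : wordLength S (1 : G) = 0 :=
  Nat.le_zero.1 (wordLength_le (S := S) (l := []) (by simp))

theorem wordLength_gen {g : G} (hg : g ∈ S) : wordLength S g ≤ 1 := by
  have := wordLength_le (S := S) (l := [g]) (by simp [hg])
  simpa using this

theorem finite_ball (hS : Subgroup.closure S = ⊤) (hf : S.Finite) (k : ℕ) :
    {g : G | wordLength S g ≤ k}.Finite := by
  have hT : (S ∪ S⁻¹).Finite := hf.union hf.inv
  have h1 : {l : List G | l.length ≤ k ∧ ∀ x ∈ l, x ∈ S ∪ S⁻¹}.Finite := by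
    have := hT.to_subtype
    have h2 := List.finite_length_le (S ∪ S⁻¹ : Set G) k
    refine (h2.image (List.map Subtype.val)).subset ?_
    rintro l ⟨hl, hl'⟩
    refine ⟨l.attach.map fun x => ⟨x.1, hl' x.1 x.2⟩, by simpa using hl, ?_⟩
    simp [List.map_map, Function.comp_def]
  refine (h1.image List.prod).subset fun g hg => ?_
  obtain ⟨l, hl, hlS, rfl⟩ := exists_word hS g
  exact ⟨l, ⟨hl ▸ hg, fun x hx => hlS x hx⟩, rfl⟩

/-- a function which moves by at most `L` along the generators moves by at most `L |g|` -/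
theorem le_wordLength {F : Type} [MulAction G F] {W : Type*} [PseudoMetricSpace W]
    (hS : Subgroup.closure S = ⊤) {a : F → W} {L : ℝ}
    (ha : ∀ s ∈ S, ∀ v, dist (a (s • v)) (a v) ≤ L) (g : G) (v : F) :
    dist (a (g • v)) (a v) ≤ wordLength S g * L := by
  obtain ⟨l, hl, hlS, rfl⟩ := exists_word hS g
  rw [← hl]
  clear hl
  induction l with
  | nil => simp
  | cons s l ih =>
    have h1 := ih fun x hx => hlS x (by simp [hx])
    have h2 : dist (a (s • l.prod • v)) (a (l.prod • v)) ≤ L := by
      rcases hlS s (by simp) with h | h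
      · exact ha s h _
      · have := ha _ h (s • l.prod • v)
        rwa [inv_smul_smul, dist_comm] at this
    rw [List.prod_cons, mul_smul, List.length_cons]
    have h3 := dist_triangle (a (s • l.prod • v)) (a (l.prod • v)) (a v)
    push_cast
    linarith

end wl

section wlD

variable (D : MonD A G)

/-- the word length for the values of the cocycle, as a real number -/
def wl (g : G) : ℝ := wordLength (gens D) g

theorem wl_nonneg (g : G) : 0 ≤ wl D g := Nat.cast_nonneg _

theorem wl_one : wl D 1 = 0 := by rw [wl, wordLength_one, Nat.cast_zero]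

theorem wl_gen {g : G} (hg : g ∈ gens D) : wl D g ≤ 1 := by
  unfold wl
  exact_mod_cast wordLength_gen hg

variable [ConnectedSpace (D.cov G)]

theorem wl_mul (g h : G) : wl D (g * h) ≤ wl D g + wl D h := by
  unfold wl
  exact_mod_cast wordLength_mul (closure_gens D) g h

theorem wl_inv (g : G) : wl D g⁻¹ = wl D g := by
  rw [wl, wl, wordLength_inv (closure_gens D)]

theorem abs_wl_mul (g h : G) : |wl D (g * h) - wl D h| ≤ wl D g := by
  have h1 := wl_mul D g h
  have h2 := wl_mul D g⁻¹ (g * h)
  rw [inv_mul_cancel_left, wl_inv] at h2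
  rw [abs_le]
  constructor <;> linarith

theorem abs_wl_mul' (g h : G) : |wl D (g * h) - wl D g| ≤ wl D h := by
  have h1 := abs_wl_mul D h⁻¹ g⁻¹
  rwa [← mul_inv_rev, wl_inv, wl_inv, wl_inv] at h1

theorem abs_wl_gen {s : G} (hs : s ∈ gens D) (g : G) : |wl D (s * g) - wl D g| ≤ 1 :=
  (abs_wl_mul D s g).trans (wl_gen D hs)

theorem finite_wl [Finite A.ι] (R : ℝ) : {g : G | wl D g ≤ R}.Finite := by
  refine (finite_ball (closure_gens D) (finite_gens D) ⌊R⌋₊).subset fun g hg => ?_
  exact Nat.le_floor hg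

theorem dist_le_wl {F : Type} [MulAction G F] {W : Type*} [PseudoMetricSpace W] {a : F → W} {L : ℝ}
    (ha : ∀ s ∈ gens D, ∀ v, dist (a (s • v)) (a v) ≤ L) (g : G) (v : F) :
    dist (a (g • v)) (a v) ≤ wl D g * L := le_wordLength (closure_gens D) ha g v

end wlD

end

end Crest.Agent.X261.Cov.A
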