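import Crest.Agent.X261.Cov.A

/-!
# X261, package COV (helper3), part B: the interpolation operator

`Ip D P a e = ∑ j, ψ_j (pr e) • a (co j e)` for `a : F → W`: a smooth function on `D.cov F`.
* `ip_eq_loc`, `read_ip` : on the sheet `p` it is the pull-back of the smooth function `loc D P a p`;
* `sm_ip`, `ip_const`, `ip_add`, `ip_clm`, `ip_cmap`, `ip_deck`, `ip_affine` (equivariant maps);
* `PosP P` (`ψ ≥ 0`), `exists_posP`; `ip_mem_convex`, `ip_mono`, `norm_ip_sub_le`;
* `exists_cpt_sheet`, `finite_co`, `hasCompactSupport_ip`.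
-/

set_option autoImplicit false
set_option linter.unusedSectionVars false

open Set Filter Topology
open scoped ContDiff

namespace Crest.Agent.X261.Cov.B

open Crest.Agent.R275.Geo Crest.Agent.R273.UCov_914 Crest.Agent.X261.Cov.A

noncomputable section

variable {n : ℕ} {X : Type} [TopologicalSpace X] {A : Atl n X}
variable {G : Type} [Group G] (D : MonD A G) {F : Type} [MulAction G F]

/-! ### partitions of unity -/

/-- nonnegative partition of unity -/
def PosP (P : Part A) : Prop := ∀ i x, 0 ≤ P.ψ i x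

theorem mem_of_psi (P : Part A) {j : A.ι} {x : X} (h : P.ψ j x ≠ 0) : x ∈ (A.e j).source :=
  MonD.tsupport_psi P j (subset_tsupport _ h)

theorem sum_psi [Fintype A.ι] (P : Part A) (x : X) : ∑ j, P.ψ j x = 1 := by
  rw [← finsum_eq_sum_of_fintype, P.sum_one]

theorem exists_psi_ne (P : Part A) (x : X) : ∃ j, P.ψ j x ≠ 0 := by
  by_contra h
  push Not at h
  have := P.sum_one x
  simp [h] at this

theorem exists_posP [Finite A.ι] (P : Part A) : ∃ P' : Part A, PosP P' := by
  have := Fintype.ofFinite A.ι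
  have hpos : ∀ x, 0 < ∑ j, P.ψ j x ^ 2 := by
    intro x
    obtain ⟨j, hj⟩ := exists_psi_ne P x
    exact Finset.sum_pos' (fun _ _ => sq_nonneg _) ⟨j, Finset.mem_univ _, by positivity⟩
  have hsub : ∀ i, tsupport (fun x => P.ψ i x ^ 2 / ∑ j, P.ψ j x ^ 2) ⊆ tsupport (P.ψ i) := by
    intro i
    refine closure_mono fun x hx h => hx ?_
    simp [h]
  refine ⟨⟨fun i x => P.ψ i x ^ 2 / ∑ j, P.ψ j x ^ 2, P.χ, fun i k => ?_, P.χ_sm, P.χ_cpt,
    P.χ_sub, fun i x hx => P.χ_one i x (hsub i hx), P.lf, fun x => ?_⟩, fun i x => ?_⟩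
  · exact ((P.ψ_sm i k).pow 2).div (ContDiffOn.sum fun j _ => (P.ψ_sm j k).pow 2)
      fun z _ => (hpos _).ne'
  · rw [finsum_eq_sum_of_fintype, ← Finset.sum_div, div_self (hpos x).ne']
  · exact div_nonneg (sq_nonneg _) (hpos x).le

theorem PosP.le_one [Finite A.ι] {P : Part A} (hP : PosP P) (i : A.ι) (x : X) : P.ψ i x ≤ 1 := by
  have := Fintype.ofFinite A.ι
  rw [← sum_psi P x]
  exact Finset.single_le_sum (f := fun j => P.ψ j x) (fun j _ => hP j x) (Finset.mem_univ i)

/-! ### the constant value of the cocycle -/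

open Classical in
/-- the value of the cocycle on the overlap of two charts -/
def cst (i j : A.ι) : G :=
  if h : ((A.e i).source ∩ (A.e j).source).Nonempty then D.c i j h.some else 1

theorem c_eq_cst {i j : A.ι} {x : X} (hi : x ∈ (A.e i).source) (hj : x ∈ (A.e j).source) :
    D.c i j x = cst D i j := by
  have h : ((A.e i).source ∩ (A.e j).source).Nonempty := ⟨x, hi, hj⟩
  rw [cst, dif_pos h]
  exact D.c_loc i j x ⟨hi, hj⟩ _ h.some_mem

theorem cst_mem_or (i j : A.ι) : cst D i j ∈ gens D ∨ cst D i j = 1 := by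
  by_cases h : ((A.e i).source ∩ (A.e j).source).Nonempty
  · left
    rw [← c_eq_cst D h.some_mem.1 h.some_mem.2]
    exact c_mem_gens D h.some_mem.1 h.some_mem.2
  · right
    rw [cst, dif_neg h]

theorem co_eq_cst {i j : A.ι} {v : F} {e : D.cov F} (he : e ∈ D.sheet i v)
    (hj : D.pr e ∈ (A.e j).source) : D.co j e = cst D i j • v := by
  rw [D.co_eq he.1 hj, he.2, c_eq_cst D he.1 hj]

/-! ### compactness -/

section cpt

theorem exists_sheets {K : Set (D.cov F)} (hK : IsCompact K) :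
    ∃ T : Finset (A.ι × F), K ⊆ ⋃ p ∈ T, D.sheet p.1 p.2 := by
  refine hK.elim_finite_subcover (fun p : A.ι × F => D.sheet p.1 p.2)
    (fun p => D.isOpen_sheet _ _) fun e _ => ?_
  obtain ⟨i, hi⟩ := A.cover (D.pr e)
  exact mem_iUnion.2 ⟨(i, D.co i e), hi, rfl⟩

/-- a compact set meets finitely many sheets -/
theorem finite_co [Finite A.ι] {K : Set (D.cov F)} (hK : IsCompact K) :
    {v : F | ∃ e ∈ K, ∃ j, e ∈ D.sheet j v}.Finite := by
  obtain ⟨T, hT⟩ := exists_sheets D hK
  refine (Set.Finite.biUnion T.finite_toSet fun p _ =>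
    Set.finite_range fun j => cst D p.1 j • p.2).subset ?_
  rintro v ⟨e, he, j, hj⟩
  obtain ⟨p, hp, hpe⟩ := mem_iUnion₂.1 (hT he)
  exact mem_iUnion₂.2 ⟨p, hp, j, by rw [← hj.2]; exact (co_eq_cst D hpe hj.1).symm⟩

variable [CompactSpace X] [T2Space X] [Finite A.ι]

/-- finitely many sheets lie in a compact set -/
theorem exists_cpt_sheets {S : Set F} (hS : S.Finite) :
    ∃ K : Set (D.cov F), IsCompact K ∧ ∀ i, ∀ v ∈ S, D.sheet i v ⊆ K := by
  obtain ⟨K, h1, h2, h3⟩ := MonD.exists_shrink A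
  refine ⟨⋃ v ∈ S, ⋃ i, ⋃ j, D.pt j (cst D i j • v) '' K j, ?_, fun i v hv e he => ?_⟩
  · exact hS.isCompact_biUnion fun v _ => isCompact_iUnion fun i => isCompact_iUnion fun j =>
      D.isCompact_pt F _ (h1 j) (h2 j)
  · obtain ⟨j, hj⟩ := mem_iUnion.1 (h3 ▸ mem_univ (D.pr e) : D.pr e ∈ ⋃ j, K j)
    refine mem_iUnion₂.2 ⟨v, hv, mem_iUnion₂.2 ⟨i, j, D.pr e, hj, ?_⟩⟩
    rw [← co_eq_cst D he (h2 j hj), D.pt_co (h2 j hj)]

theorem exists_cpt_sheet (v : F) :
    ∃ K : Set (D.cov F), IsCompact K ∧ ∀ i, D.sheet i v ⊆ K := by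
  obtain ⟨K, h1, h2⟩ := exists_cpt_sheets D (Set.finite_singleton v)
  exact ⟨K, h1, fun i => h2 i v rfl⟩

/-- a closed set which meets finitely many sheets is compact -/
theorem isCompact_of_finite {Z : Set (D.cov F)} (hZ : IsClosed Z) {S : Set F} (hS : S.Finite)
    (h : ∀ e ∈ Z, ∃ j, D.pr e ∈ (A.e j).source ∧ D.co j e ∈ S) : IsCompact Z := by
  obtain ⟨K, h1, h2⟩ := exists_cpt_sheets D hS
  refine h1.of_isClosed_subset hZ fun e he => ?_
  obtain ⟨j, hj, hv⟩ := h e he
  exact h2 j _ hv ⟨hj, rfl⟩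

theorem locallyCompact : LocallyCompactSpace (D.cov F) := by
  have : WeaklyLocallyCompactSpace (D.cov F) := by
    refine ⟨fun e => ?_⟩
    obtain ⟨i, hi⟩ := A.cover (D.pr e)
    obtain ⟨K, h1, h2⟩ := exists_cpt_sheet D (D.co i e)
    exact ⟨K, h1, mem_of_superset ((D.isOpen_sheet i _).mem_nhds ⟨hi, rfl⟩) (h2 i)⟩
  infer_instance

end cpt

/-! ### the operator -/

variable (P : Part A) {W : Type*} [NormedAddCommGroup W] [NormedSpace ℝ W]

/-- the interpolation of a function of the sheet number -/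
def Ip (a : F → W) (e : D.cov F) : W := ∑ᶠ j, P.ψ j (D.pr e) • a (D.co j e)

/-- its expression on the sheet `p` -/
def loc (a : F → W) (p : A.ι × F) (x : X) : W := ∑ᶠ j, P.ψ j x • a (cst D p.1 j • p.2)

theorem ip_eq_sum [Fintype A.ι] (a : F → W) (e : D.cov F) :
    Ip D P a e = ∑ j, P.ψ j (D.pr e) • a (D.co j e) := finsum_eq_sum_of_fintype _

theorem loc_eq_sum [Fintype A.ι] (a : F → W) (p : A.ι × F) (x : X) :
    loc D P a p x = ∑ j, P.ψ j x • a (cst D p.1 j • p.2) := finsum_eq_sum_of_fintype _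

theorem ip_eq_loc (a : F → W) {p : A.ι × F} {e : D.cov F} (he : e ∈ D.sheet p.1 p.2) :
    Ip D P a e = loc D P a p (D.pr e) := by
  refine finsum_congr fun j => ?_
  by_cases h : P.ψ j (D.pr e) = 0
  · rw [h, zero_smul, zero_smul]
  · rw [co_eq_cst D he (mem_of_psi P h)]

theorem read_ip (a : F → W) (p : A.ι × F) {z : Cn n} (hz : z ∈ (A.e p.1).target) :
    Ip D P a (((D.atl F).e p).symm z) = loc D P a p ((A.e p.1).symm z) :=
  ip_eq_loc D P a (D.pt_mem_sheet p.2 ((A.e p.1).map_target hz))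

theorem read_ip_ev (a : F → W) (p : A.ι × F) {z : Cn n} (hz : z ∈ (A.e p.1).target) :
    (fun w => Ip D P a (((D.atl F).e p).symm w)) =ᶠ[𝓝 z]
      fun w => loc D P a p ((A.e p.1).symm w) := by
  filter_upwards [(A.e p.1).open_target.mem_nhds hz] with w hw
  exact read_ip D P a p hw

theorem ip_congr {a b : F → W} {e : D.cov F}
    (h : ∀ j, D.pr e ∈ (A.e j).source → a (D.co j e) = b (D.co j e)) :
    Ip D P a e = Ip D P b e := by
  refine finsum_congr fun j => ?_
  by_cases hj : P.ψ j (D.pr e) = 0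
  · rw [hj, zero_smul, zero_smul]
  · rw [h j (mem_of_psi P hj)]

theorem ip_cmap {G' : Type} [Group G'] {D' : MonD A G'} {F' : Type} [MulAction G' F'] {f : F → F'}
    (hf : Cpt D D' f) (a : F' → W) (e : D.cov F) :
    Ip D' P a (cmap D D' f e) = Ip D P (fun v => a (f v)) e := by
  unfold Ip
  simp only [co_cmap hf, pr_cmap]

theorem ip_prj {G' : Type} [Group G'] (φ : G →* G') (a : G' → W) (e : D.cov G) :
    Ip (push D φ) P a (prj D φ e) = Ip D P (fun v => a (φ v)) e := ip_cmap D P (cpt_push D φ) a e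

theorem ip_deck (a : G → W) (g : G) (e : D.cov G) :
    Ip D P a (g • e) = Ip D P (fun v => a (v * g⁻¹)) e := by
  unfold Ip
  simp only [MonD.co_deck, MonD.pr_deck]

variable [Finite A.ι]

theorem sm_loc (a : F → W) (p : A.ι × F) : A.Sm (loc D P a p) := by
  have := Fintype.ofFinite A.ι
  intro i
  simp only [loc_eq_sum]
  exact ContDiffOn.sum fun j _ => (P.ψ_sm j i).smul contDiffOn_const

theorem sm_ip (a : F → W) : (D.atl F).Sm (Ip D P a) := fun p =>
  (sm_loc D P a p p.1).congr fun _ hz => read_ip D P a p hz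

theorem continuous_ip (a : F → W) : Continuous (Ip D P a) := by
  rw [continuous_iff_continuousAt]
  intro e
  obtain ⟨p, hp⟩ := (D.atl F).cover e
  have h1 : ContinuousOn (fun y => Ip D P a (((D.atl F).e p).symm ((D.atl F).e p y)))
      ((D.atl F).e p).source :=
    (sm_ip D P a p).continuousOn.comp ((D.atl F).e p).continuousOn
      fun y hy => ((D.atl F).e p).map_source hy
  have h2 : ContinuousOn (Ip D P a) ((D.atl F).e p).source :=
    h1.congr fun y hy => by simp only [((D.atl F).e p).left_inv hy]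
  exact h2.continuousAt (((D.atl F).e p).open_source.mem_nhds hp)

theorem ip_const (c : W) (e : D.cov F) : Ip D P (fun _ => c) e = c := by
  have := Fintype.ofFinite A.ι
  rw [ip_eq_sum, ← Finset.sum_smul, sum_psi, one_smul]

theorem ip_eq_of {a : F → W} {e : D.cov F} {c : W}
    (h : ∀ j, D.pr e ∈ (A.e j).source → a (D.co j e) = c) : Ip D P a e = c := by
  rw [ip_congr D P (b := fun _ => c) h, ip_const]

theorem ip_add (a b : F → W) (e : D.cov F) :
    Ip D P (fun v => a v + b v) e = Ip D P a e + Ip D P b e := by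
  have := Fintype.ofFinite A.ι
  simp only [ip_eq_sum, smul_add, Finset.sum_add_distrib]

theorem ip_sub (a b : F → W) (e : D.cov F) :
    Ip D P (fun v => a v - b v) e = Ip D P a e - Ip D P b e := by
  have := Fintype.ofFinite A.ι
  simp only [ip_eq_sum, smul_sub, Finset.sum_sub_distrib]

theorem ip_sum {κ : Type*} (T : Finset κ) (a : κ → F → W) (e : D.cov F) :
    Ip D P (fun v => ∑ k ∈ T, a k v) e = ∑ k ∈ T, Ip D P (a k) e := by
  have := Fintype.ofFinite A.ι
  simp only [ip_eq_sum, Finset.smul_sum]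
  exact Finset.sum_comm

theorem ip_lm {W' : Type*} [NormedAddCommGroup W'] [NormedSpace ℝ W'] (T : W →ₗ[ℝ] W')
    (a : F → W) (e : D.cov F) : Ip D P (fun v => T (a v)) e = T (Ip D P a e) := by
  have := Fintype.ofFinite A.ι
  simp only [ip_eq_sum, map_sum, map_smul]

theorem ip_smul (c : ℝ) (a : F → W) (e : D.cov F) :
    Ip D P (fun v => c • a v) e = c • Ip D P a e :=
  ip_lm D P (c • LinearMap.id) a e

theorem ip_mul (c : ℝ) (a : F → ℝ) (e : D.cov F) :
    Ip D P (fun v => c * a v) e = c * Ip D P a e := ip_smul D P c a e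

theorem ip_add_const (a : F → W) (c : W) (e : D.cov F) :
    Ip D P (fun v => a v + c) e = Ip D P a e + c := by rw [ip_add, ip_const]

/-- **equivariant maps** -/
theorem ip_affine {a : G → W} {g : G} (T : W →ₗ[ℝ] W) (c : W)
    (h : ∀ v, a (v * g⁻¹) = T (a v) + c) (e : D.cov G) :
    Ip D P a (g • e) = T (Ip D P a e) + c := by
  rw [ip_deck]
  simp only [h]
  rw [ip_add_const, ip_lm]

theorem ip_inv {a : G → W} {g : G} (h : ∀ v, a (v * g⁻¹) = a v) (e : D.cov G) :
    Ip D P a (g • e) = Ip D P a e := by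
  rw [ip_deck]
  simp only [h]

theorem loc_eq (a : F → W) (p : A.ι × F) [Fintype A.ι] (x : X) :
    loc D P a p x = ∑ j, P.ψ j x • (a (cst D p.1 j • p.2) - a p.2) + a p.2 := by
  simp only [loc_eq_sum, smul_sub, Finset.sum_sub_distrib, ← Finset.sum_smul, sum_psi, one_smul,
    sub_add_cancel]

/-- sums over families which are locally finite in the fibre -/
theorem hasSum_ip {κ : Type*} {a : κ → F → W} {b : F → W} (h : ∀ v, HasSum (fun k => a k v) (b v))
    (e : D.cov F) : HasSum (fun k => Ip D P (a k) e) (Ip D P b e) := by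
  have := Fintype.ofFinite A.ι
  simp only [ip_eq_sum]
  exact hasSum_sum fun j _ => (h _).const_smul _

/-! ### supports -/

theorem exists_of_ip_ne {a : F → W} {e : D.cov F} (h : Ip D P a e ≠ 0) :
    ∃ j, P.ψ j (D.pr e) ≠ 0 ∧ a (D.co j e) ≠ 0 := by
  by_contra hc
  push Not at hc
  refine h (finsum_eq_zero_of_forall_eq_zero fun j => ?_)
  by_cases hj : P.ψ j (D.pr e) = 0
  · rw [hj, zero_smul]
  · rw [hc j hj, smul_zero]

theorem hasCompactSupport_ip [T2Space X] {a : F → W} (ha : (Function.support a).Finite) :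
    HasCompactSupport (Ip D P a) := by
  refine HasCompactSupport.intro (K := ⋃ v ∈ Function.support a, ⋃ j,
    D.pt j v '' tsupport (P.ψ j)) ?_ fun e he => ?_
  · exact ha.isCompact_biUnion fun v _ => isCompact_iUnion fun j =>
      D.isCompact_pt F v (MonD.cpt_psi P j) (MonD.tsupport_psi P j)
  · by_contra h
    obtain ⟨j, h1, h2⟩ := exists_of_ip_ne D P h
    exact he (mem_iUnion₂.2 ⟨_, h2, mem_iUnion.2 ⟨j, D.pr e, subset_tsupport _ h1,
      D.pt_co (mem_of_psi P h1)⟩⟩)

/-! ### positivity -/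

variable {P}

theorem ip_mem_convex (hP : PosP P) {S : Set W} (hS : Convex ℝ S) {a : F → W} {e : D.cov F}
    (h : ∀ j, D.pr e ∈ (A.e j).source → a (D.co j e) ∈ S) : Ip D P a e ∈ S := by
  classical
  have := Fintype.ofFinite A.ι
  rw [ip_eq_sum, ← Finset.sum_filter_of_ne (p := fun j => P.ψ j (D.pr e) ≠ 0)
    fun j _ hj h0 => hj (by rw [h0, zero_smul])]
  refine hS.sum_mem (fun j _ => hP j _) ?_ fun j hj => h j (mem_of_psi P (Finset.mem_filter.1 hj).2)
  rw [Finset.sum_filter_ne_zero, sum_psi]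

theorem ip_le (hP : PosP P) {a : F → ℝ} {e : D.cov F} {c : ℝ}
    (h : ∀ j, D.pr e ∈ (A.e j).source → a (D.co j e) ≤ c) : Ip D P a e ≤ c :=
  ip_mem_convex D hP (convex_Iic c) h

theorem le_ip (hP : PosP P) {a : F → ℝ} {e : D.cov F} {c : ℝ}
    (h : ∀ j, D.pr e ∈ (A.e j).source → c ≤ a (D.co j e)) : c ≤ Ip D P a e :=
  ip_mem_convex D hP (convex_Ici c) h

theorem ip_nonneg (hP : PosP P) {a : F → ℝ} (h : ∀ v, 0 ≤ a v) (e : D.cov F) : 0 ≤ Ip D P a e :=
  le_ip D hP fun _ _ => h _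

theorem ip_mono (hP : PosP P) {a b : F → ℝ} {e : D.cov F}
    (h : ∀ j, D.pr e ∈ (A.e j).source → a (D.co j e) ≤ b (D.co j e)) :
    Ip D P a e ≤ Ip D P b e := by
  have h1 := le_ip D hP (a := fun v => b v - a v) (e := e) (c := 0) fun j hj => sub_nonneg.2 (h j hj)
  rw [ip_sub] at h1
  linarith

theorem norm_ip_le (hP : PosP P) {a : F → W} {e : D.cov F} {c : W} {L : ℝ}
    (h : ∀ j, D.pr e ∈ (A.e j).source → ‖a (D.co j e) - c‖ ≤ L) : ‖Ip D P a e - c‖ ≤ L := by
  have h1 := ip_mem_convex D hP (convex_closedBall c L) (a := a) (e := e)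
    fun j hj => mem_closedBall_iff_norm.2 (h j hj)
  exact mem_closedBall_iff_norm.1 h1

theorem norm_ip_le_ip (hP : PosP P) (a : F → W) (e : D.cov F) :
    ‖Ip D P a e‖ ≤ Ip D P (fun v => ‖a v‖) e := by
  have := Fintype.ofFinite A.ι
  simp only [ip_eq_sum]
  refine (norm_sum_le _ _).trans (le_of_eq (Finset.sum_congr rfl fun j _ => ?_))
  rw [norm_smul, Real.norm_of_nonneg (hP j _), smul_eq_mul]

/-- the values at the neighbours of `v` are within `L` of the value at `v` -/
def LipAt (a : F → W) (v : F) (L : ℝ) : Prop := ∀ s ∈ gens D, ‖a (s • v) - a v‖ ≤ L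

/-- Lipschitz along the generators -/
def Lip (a : F → W) (L : ℝ) : Prop := ∀ v, LipAt D a v L

theorem LipAt.nonneg {a : F → W} {v : F} {L : ℝ} (h : LipAt D a v L) {i : A.ι} {x : X}
    (hx : x ∈ (A.e i).source) : 0 ≤ L :=
  (norm_nonneg _).trans (h _ (c_mem_gens D hx hx))

theorem LipAt.cst {a : F → W} {v : F} {L : ℝ} (h : LipAt D a v L) (hL : 0 ≤ L) (i j : A.ι) :
    ‖a (cst D i j • v) - a v‖ ≤ L := by
  rcases cst_mem_or D i j with h1 | h1
  · exact h _ h1
  · rw [h1, one_smul, sub_self, norm_zero]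
    exact hL

theorem norm_ip_sub_le (hP : PosP P) {a : F → W} {i : A.ι} {v : F} {L : ℝ} (h : LipAt D a v L)
    {e : D.cov F} (he : e ∈ D.sheet i v) : ‖Ip D P a e - a v‖ ≤ L := by
  refine norm_ip_le D hP fun j hj => ?_
  rw [D.co_eq he.1 hj, he.2]
  exact h _ (c_mem_gens D he.1 hj)

theorem Lip.mono {a : F → W} {L L' : ℝ} (h : Lip D a L) (hL : L ≤ L') : Lip D a L' :=
  fun v s hs => (h v s hs).trans hL

theorem Lip.comp {W' : Type*} [NormedAddCommGroup W'] [NormedSpace ℝ W'] {a : F → W} {L c : ℝ}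
    (h : Lip D a L) {κ : W → W'} (hc : 0 ≤ c) (hκ : ∀ s t, ‖κ s - κ t‖ ≤ c * ‖s - t‖) :
    Lip D (fun v => κ (a v)) (c * L) :=
  fun v s hs => (hκ _ _).trans (mul_le_mul_of_nonneg_left (h v s hs) hc)

theorem Lip.deck {a : G → W} {L : ℝ} (h : Lip D a L) (g : G) : Lip D (fun v => a (v * g)) L := by
  intro v s hs
  have := h (v * g) s hs
  simpa only [smul_eq_mul, mul_assoc] using this

theorem lip_wl [ConnectedSpace (D.cov G)] : Lip D (wl D) 1 := fun v _ hs => abs_wl_gen D hs v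

theorem Lip.le_wl [ConnectedSpace (D.cov G)] {a : F → W} {L : ℝ} (h : Lip D a L) (g : G) (v : F) :
    ‖a (g • v) - a v‖ ≤ wl D g * L := by
  rw [← dist_eq_norm]
  exact dist_le_wl D (fun s hs v => by rw [dist_eq_norm]; exact h v s hs) g v

end

end Crest.Agent.X261.Cov.B
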