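import Crest.Agent.X261.Cov.C

/-!
# X261, package COV (helper3), part D: fundamental domains and unfolding of integrals

* `cd D e : F` (measurable sheet number), `sec D v : X → D.cov F` (measurable sections),
  `FD D T = {e | cd D e ∈ T}`;
* `Lw D h h'` : the volume form `h'` of the covering is the lift of `h`;
* `restrict_FD`, `vm_eq_sum`, `lintegral_unfold`, `hasSum_integral`, `integral_unfold`;
* `measurePreserving_deck`, `smulInv`, `isFD` (`IsFundamentalDomain H (FD D T)`);
-/

set_option autoImplicit false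
set_option linter.unusedSectionVars false

open Set Filter Topology MeasureTheory
open scoped ENNReal Pointwise

namespace Crest.Agent.X261.Cov.D

open Crest.Agent.R275.Geo Crest.Agent.R275.Core144 Crest.Agent.R273.UCov_914
open Crest.Agent.R273.Defs_333 Crest.Agent.R273.Kah_333 Crest.Agent.R273.Vol_333
open Crest.Agent.R273.Vm_333
open Crest.Agent.R273.RMan4_798 (pullKah)
open Crest.Agent.T223.Hm (ix ix_Dj ix_mem)
open Crest.Agent.X261.Cov.A Crest.Agent.X261.Cov.B Crest.Agent.X261.Cov.C

noncomputable section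

variable {n : ℕ} {X : Type} [TopologicalSpace X] {A : Atl n X}
variable {G : Type} [Group G] (D : MonD A G) {F : Type} [MulAction G F]

/-! ### sums over the fibres -/

theorem tsum_pt {W : Type*} [AddCommMonoid W] [TopologicalSpace W] (f : D.cov F → W) {i j : A.ι}
    {x : X} (hi : x ∈ (A.e i).source) (hj : x ∈ (A.e j).source) :
    ∑' v, f (D.pt i v x) = ∑' v, f (D.pt j v x) := by
  simp only [D.pt_eq _ hi hj]
  exact (MulAction.toPerm (D.c i j x)).tsum_eq fun v => f (D.pt j v x)

theorem deck_eq_pt (g : G) {i : A.ι} {e : D.cov G} (hi : D.pr e ∈ (A.e i).source) :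
    g • e = D.pt i (D.co i e * g⁻¹) (D.pr e) := by
  rw [← D.deck_pt, D.pt_co hi]

theorem tsum_deck_pt {W : Type*} [AddCommMonoid W] [TopologicalSpace W] (f : D.cov G → W)
    {i : A.ι} {e : D.cov G} (hi : D.pr e ∈ (A.e i).source) :
    ∑' g : G, f (g • e) = ∑' v, f (D.pt i v (D.pr e)) := by
  simp only [deck_eq_pt D _ hi]
  exact ((Equiv.inv G).trans (Equiv.mulLeft (D.co i e))).tsum_eq fun v => f (D.pt i v (D.pr e))

/-! ### measurable trivialisation -/

variable [Countable A.ι]

theorem ix_eq {i : A.ι} {x : X} (h : x ∈ Dj A i) : ix A x = i := by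
  by_contra hne
  exact Set.disjoint_left.1 (Dj_disjoint hne) (ix_Dj x) h

/-- the sheet number -/
def cd (e : D.cov F) : F := D.co (ix A (D.pr e)) e

/-- the sections -/
def sec (v : F) (x : X) : D.cov F := D.pt (ix A x) v x

/-- union of fundamental domains -/
def FD (T : Set F) : Set (D.cov F) := {e | cd D e ∈ T}

@[simp] theorem pr_sec (v : F) (x : X) : D.pr (sec D v x) = x := rfl

@[simp] theorem cd_sec (v : F) (x : X) : cd D (sec D v x) = v := D.co_pt v (ix_mem x)

@[simp] theorem sec_cd (e : D.cov F) : sec D (cd D e) (D.pr e) = e := D.pt_co (ix_mem _)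

theorem mem_sheet_cd (e : D.cov F) : e ∈ D.sheet (ix A (D.pr e)) (cd D e) := ⟨ix_mem _, rfl⟩

theorem mem_FD {T : Set F} {e : D.cov F} : e ∈ FD D T ↔ cd D e ∈ T := Iff.rfl

theorem sec_mem_FD {T : Set F} {v : F} {x : X} : sec D v x ∈ FD D T ↔ v ∈ T := by
  rw [mem_FD, cd_sec]

theorem FD_univ : FD D (univ : Set F) = univ := rfl

theorem range_sec (v : F) : range (sec D v) = FD D {v} := by
  ext e
  constructor
  · rintro ⟨x, rfl⟩
    exact (sec_mem_FD D).2 rfl
  · intro h
    exact ⟨D.pr e, by rw [← show cd D e = v from h, sec_cd]⟩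

theorem cd_deck (g : G) (e : D.cov G) : cd D (g • e) = cd D e * g⁻¹ := D.co_deck g _ e

theorem deck_sec (g v : G) (x : X) : g • sec D v x = sec D (v * g⁻¹) x := D.deck_pt g _ v x

theorem cd_smul_mem (e : D.cov G) : cd D e • e ∈ FD D ({1} : Set G) := by
  rw [mem_FD, cd_deck, mul_inv_cancel]
  rfl

theorem inv_smul_sec (v : G) (x : X) : v⁻¹ • sec D 1 x = sec D v x := by
  rw [deck_sec, inv_inv, one_mul]

theorem cd_cmap {G' : Type} [Group G'] {D' : MonD A G'} {F' : Type} [MulAction G' F'] {f : F → F'}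
    (hf : Cpt D D' f) (e : D.cov F) : cd D' (cmap D D' f e) = f (cd D e) := co_cmap hf _ e

theorem cmap_sec {G' : Type} [Group G'] {D' : MonD A G'} {F' : Type} [MulAction G' F'] {f : F → F'}
    (hf : Cpt D D' f) (v : F) (x : X) : cmap D D' f (sec D v x) = sec D' (f v) x :=
  cmap_pt hf _ v x

theorem tsum_sec {W : Type*} [AddCommMonoid W] [TopologicalSpace W] (f : D.cov F → W) {i : A.ι}
    {x : X} (hi : x ∈ (A.e i).source) : ∑' v, f (sec D v x) = ∑' v, f (D.pt i v x) :=
  tsum_pt D f (ix_mem x) hi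

theorem tsum_deck {W : Type*} [AddCommMonoid W] [TopologicalSpace W] (f : D.cov G → W)
    (e : D.cov G) : ∑' g : G, f (g • e) = ∑' v, f (sec D v (D.pr e)) :=
  tsum_deck_pt D f (ix_mem _)

theorem existsUnique_FD {H : Subgroup G} {T : Set G} (hT : Subgroup.IsComplement T (H : Set G))
    (e : D.cov G) : ∃! h : H, h • e ∈ FD D T := by
  have := Subgroup.isComplement_iff_existsUnique_mul_inv_mem.1 hT (cd D e)
  refine (existsUnique_congr fun h => ?_).1 this
  rw [mem_FD, Subgroup.smul_def, cd_deck]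

section cpt

variable [Finite A.ι]

theorem finite_cd {K : Set (D.cov F)} (hK : IsCompact K) : (cd D '' K).Finite := by
  refine (finite_co D hK).subset ?_
  rintro _ ⟨e, he, rfl⟩
  exact ⟨e, he, _, mem_sheet_cd D e⟩

theorem exists_FD_sup {K : Set (D.cov F)} (hK : IsCompact K) :
    ∃ T : Finset F, K ⊆ FD D (T : Set F) :=
  ⟨(finite_cd D hK).toFinset, fun e he => by
    rw [Set.Finite.coe_toFinset]; exact ⟨e, he, rfl⟩⟩

theorem exists_cpt_FD [CompactSpace X] [T2Space X] {T : Set F} (hT : T.Finite) :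
    ∃ K : Set (D.cov F), IsCompact K ∧ FD D T ⊆ K := by
  obtain ⟨K, h1, h2⟩ := exists_cpt_sheets D hT
  exact ⟨K, h1, fun e he => h2 _ _ he (mem_sheet_cd D e)⟩

theorem abs_ex_cd [ConnectedSpace (D.cov G)] {P : Part A} (hP : PosP P) (e : D.cov G) :
    |ex D P e - wl D (cd D e)| ≤ 1 := abs_ex_sub D hP (ix_mem _)

theorem abs_dd_cd [ConnectedSpace (D.cov G)] {P : Part A} (hP : PosP P) (e e' : D.cov G) :
    |dd D P e e' - wl D (cd D e * (cd D e')⁻¹)| ≤ 2 := abs_dd_sub D hP (ix_mem _) (ix_mem _)

theorem norm_ip_cd {P : Part A} (hP : PosP P) {W : Type*} [NormedAddCommGroup W] [NormedSpace ℝ W]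
    {a : F → W} {L : ℝ} {e : D.cov F} (h : LipAt D a (cd D e) L) :
    ‖Ip D P a e - a (cd D e)‖ ≤ L := norm_ip_sub_le D hP h (mem_sheet_cd D e)

end cpt

/-! ### measurability -/

variable [MeasurableSpace X] [BorelSpace X] [MeasurableSpace (D.cov F)] [BorelSpace (D.cov F)]

theorem measurable_pr : Measurable (D.pr (F := F)) := D.continuous_pr.measurable

theorem measurableSet_FD (T : Set F) : MeasurableSet (FD D T) := by
  have : FD D T = ⋃ i, D.pr ⁻¹' Dj A i ∩ ⋃ v ∈ T, D.sheet i v := by
    ext e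
    simp only [mem_iUnion, mem_inter_iff, mem_preimage]
    constructor
    · exact fun h => ⟨_, ix_Dj _, _, h, mem_sheet_cd D e⟩
    · rintro ⟨i, h1, v, hv, h2⟩
      rw [mem_FD, cd, ix_eq h1, h2.2]
      exact hv
  rw [this]
  exact MeasurableSet.iUnion fun i => (measurable_pr D (meas_Dj i)).inter
    (isOpen_biUnion fun v _ => D.isOpen_sheet i v).measurableSet

theorem measurable_cd [MeasurableSpace F] : Measurable (cd D (F := F)) :=
  fun T _ => measurableSet_FD D T

theorem measurable_comp_cd {W : Type*} [MeasurableSpace W] (a : F → W) :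
    Measurable fun e : D.cov F => a (cd D e) := fun S _ => measurableSet_FD D (a ⁻¹' S)

theorem measurable_sec (v : F) : Measurable (sec D v) := by
  refine measurable_of_isOpen fun U hU => ?_
  have : sec D v ⁻¹' U = ⋃ i, Dj A i ∩ ((A.e i).source ∩ D.pt i v ⁻¹' U) := by
    ext x
    simp only [mem_iUnion, mem_inter_iff, mem_preimage]
    constructor
    · exact fun h => ⟨_, ix_Dj x, ix_mem x, h⟩
    · rintro ⟨i, h1, -, h2⟩
      rwa [sec, ix_eq h1]
  rw [this]
  exact MeasurableSet.iUnion fun i => (meas_Dj i).inter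
    ((D.continuousOn_pt i v).isOpen_inter_preimage (A.e i).open_source hU).measurableSet

theorem image_sec (v : F) (S : Set X) : sec D v '' S = FD D {v} ∩ D.pr ⁻¹' S := by
  ext e
  constructor
  · rintro ⟨x, hx, rfl⟩
    exact ⟨(sec_mem_FD D).2 rfl, hx⟩
  · rintro ⟨h1, h2⟩
    exact ⟨D.pr e, h2, by rw [← show cd D e = v from h1, sec_cd]⟩

theorem emb_sec (v : F) : MeasurableEmbedding (sec D v) where
  injective _ _ h := congrArg D.pr h
  measurable := measurable_sec D v
  measurableSet_image' S hS := by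
    rw [image_sec]
    exact (measurableSet_FD D _).inter (measurable_pr D hS)

/-! ### the lifted volume form -/

omit [Countable A.ι] in
/-- `h'` is the lift of the volume form `h` -/
def Lw (h : HM (KB A)⁻¹) (h' : HM (KB (D.atl F))⁻¹) : Prop := ∀ p e, h'.w p e = h.w p.1 (D.pr e)

theorem lw_volK (K : Kah A) : Lw D (volK K) (volK (pullKah D F K)) := fun _ _ => rfl

theorem lw_anti (h : HM (KB A)⁻¹) : Lw D h (D.pullAnti F h) := D.pullAnti_w h

variable [Countable F] {D} {h : HM (KB A)⁻¹} {h' : HM (KB (D.atl F))⁻¹}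

theorem vm_sheet (H : Lw D h h') {i : A.ι} {v : F} {E : Set (D.cov F)} (hE : MeasurableSet E)
    (hs : E ⊆ D.sheet i v) {S : Set X} (hS : MeasurableSet S) (hS' : S ⊆ (A.e i).source)
    (hES : ∀ x ∈ (A.e i).source, D.pt i v x ∈ E ↔ x ∈ S) : vm h' E = vm h S := by
  rw [vm_apply_chart h' (i := (i, v)) hE hs, vm_apply_chart h hS hS', chm_apply h' _ hE,
    chm_apply h _ hS]
  have h1 : {y | y ∈ R275.C1d194.Ui (D.atl F) (i, v) ∧ sg (D.atl F) (i, v) y ∈ E} =
      {y | y ∈ R275.C1d194.Ui A i ∧ sg A i y ∈ S} := by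
    ext y
    exact and_congr_right fun hy => hES _ (sg_mem (A := A) hy)
  rw [h1]
  refine lintegral_congr fun y => ?_
  unfold dn
  rw [H]
  rfl

theorem restrict_FD (H : Lw D h h') (v : F) :
    (vm h').restrict (FD D {v}) = (vm h).map (sec D v) := by
  ext E hE
  rw [Measure.restrict_apply hE, Measure.map_apply (measurable_sec D v) hE]
  have hm := hE.inter (measurableSet_FD D {v})
  have h1 : E ∩ FD D {v} = ⋃ i, E ∩ FD D {v} ∩ D.pr ⁻¹' Dj A i := by
    rw [← inter_iUnion, ← preimage_iUnion, iUnion_Dj, preimage_univ, inter_univ]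
  have h2 : sec D v ⁻¹' E = ⋃ i, sec D v ⁻¹' E ∩ Dj A i := by
    rw [← inter_iUnion, iUnion_Dj, inter_univ]
  rw [h1, h2, measure_iUnion, measure_iUnion]
  · refine tsum_congr fun i => vm_sheet H (i := i) (v := v)
      (hm.inter (measurable_pr D (meas_Dj i))) ?_ ((measurable_sec D v hE).inter (meas_Dj i))
      (fun x hx => hx.2.1) fun x hx => ?_
    · rintro e ⟨⟨-, a2⟩, a3⟩
      have a4 := mem_sheet_cd D e
      rwa [ix_eq a3, show cd D e = v from a2] at a4
    · constructor
      · rintro ⟨⟨a1, -⟩, a3⟩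
        refine ⟨?_, a3⟩
        rwa [mem_preimage, sec, ix_eq (show x ∈ Dj A i from a3)]
      · rintro ⟨a1, a3⟩
        have a4 : sec D v x = D.pt i v x := by rw [sec, ix_eq a3]
        rw [← a4]
        exact ⟨⟨a1, (sec_mem_FD D).2 rfl⟩, a3⟩
  · exact fun a b hab => (Dj_disjoint hab).mono inter_subset_right inter_subset_right
  · exact fun i => (measurable_sec D v hE).inter (meas_Dj i)
  · exact fun a b hab => ((Dj_disjoint hab).preimage D.pr).mono inter_subset_right
      inter_subset_right
  · exact fun i => hm.inter (measurable_pr D (meas_Dj i))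

omit [MeasurableSpace X] [BorelSpace X] in
theorem restrict_FD_sum [MeasurableSpace X] [BorelSpace X] (μ : Measure (D.cov F)) (T : Set F) :
    μ.restrict (FD D T) = Measure.sum fun v : T => μ.restrict (FD D {(v : F)}) := by
  rw [← Measure.restrict_iUnion]
  · congr 1
    ext e
    simp only [mem_iUnion, mem_FD, mem_singleton_iff]
    exact ⟨fun h => ⟨⟨_, h⟩, rfl⟩, fun ⟨v, hv⟩ => hv ▸ v.2⟩
  · intro a b hab
    rw [Function.onFun, Set.disjoint_left]
    intro e h1 h2
    exact hab (Subtype.ext ((show cd D e = a from h1).symm.trans h2))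
  · exact fun v => measurableSet_FD D _

theorem sum_restrict_FD (μ : Measure (D.cov F)) :
    μ = Measure.sum fun v : F => μ.restrict (FD D {v}) := by
  rw [← Measure.restrict_iUnion]
  · rw [show (⋃ v : F, FD D {v}) = univ from
      eq_univ_of_forall fun e => mem_iUnion.2 ⟨cd D e, rfl⟩, Measure.restrict_univ]
  · intro a b hab
    rw [Function.onFun, Set.disjoint_left]
    intro e h1 h2
    exact hab ((show cd D e = a from h1).symm.trans h2)
  · exact fun v => measurableSet_FD D _

/-- **unfolding** -/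
theorem vm_eq_sum (H : Lw D h h') : vm h' = Measure.sum fun v : F => (vm h).map (sec D v) := by
  rw [sum_restrict_FD (vm h')]
  simp only [restrict_FD H]

theorem vm_FD_sum (H : Lw D h h') (T : Set F) :
    (vm h').restrict (FD D T) = Measure.sum fun v : T => (vm h).map (sec D (v : F)) := by
  rw [restrict_FD_sum]
  simp only [restrict_FD H]

theorem measurePreserving_sec (H : Lw D h h') (v : F) :
    MeasurePreserving (sec D v) (vm h) ((vm h').restrict (FD D {v})) :=
  ⟨measurable_sec D v, (restrict_FD H v).symm⟩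

theorem measurePreserving_pr (H : Lw D h h') (v : F) :
    MeasurePreserving D.pr ((vm h').restrict (FD D {v})) (vm h) :=
  ⟨measurable_pr D, by
    rw [restrict_FD H, Measure.map_map (measurable_pr D) (measurable_sec D v)]
    exact Measure.map_id⟩

theorem vm_FD_one (H : Lw D h h') (v : F) : vm h' (FD D {v}) = vm h univ := by
  rw [← Measure.restrict_apply_univ, restrict_FD H, Measure.map_apply (measurable_sec D v)
    MeasurableSet.univ, preimage_univ]

theorem vm_FD (H : Lw D h h') (T : Finset F) : vm h' (FD D (T : Set F)) = T.card * vm h univ := by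
  rw [← Measure.restrict_apply_univ, restrict_FD_sum, Measure.sum_apply _ MeasurableSet.univ]
  simp only [Measure.restrict_apply_univ, vm_FD_one H]
  rw [Finset.tsum_subtype' T fun _ => vm h univ, Finset.sum_const, nsmul_eq_mul]

theorem setLIntegral_FD_one (H : Lw D h h') (v : F) (f : D.cov F → ℝ≥0∞) :
    ∫⁻ e in FD D {v}, f e ∂vm h' = ∫⁻ x, f (sec D v x) ∂vm h := by
  rw [restrict_FD H, (emb_sec D v).lintegral_map]

theorem setLIntegral_FD (H : Lw D h h') (T : Set F) (f : D.cov F → ℝ≥0∞) :
    ∫⁻ e in FD D T, f e ∂vm h' = ∑' v : T, ∫⁻ x, f (sec D (v : F) x) ∂vm h := by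
  rw [vm_FD_sum H, lintegral_sum_measure]
  exact tsum_congr fun v => (emb_sec D _).lintegral_map f

theorem lintegral_eq_tsum (H : Lw D h h') (f : D.cov F → ℝ≥0∞) :
    ∫⁻ e, f e ∂vm h' = ∑' v, ∫⁻ x, f (sec D v x) ∂vm h := by
  rw [vm_eq_sum H, lintegral_sum_measure]
  exact tsum_congr fun v => (emb_sec D v).lintegral_map f

theorem aemeasurable_sec (H : Lw D h h') {W : Type*} [MeasurableSpace W] {f : D.cov F → W}
    (hf : AEMeasurable f (vm h')) (v : F) : AEMeasurable (fun x => f (sec D v x)) (vm h) :=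
  hf.restrict.comp_quasiMeasurePreserving (measurePreserving_sec H v).quasiMeasurePreserving

theorem aesm_sec (H : Lw D h h') {W : Type*} [TopologicalSpace W] {f : D.cov F → W}
    (hf : AEStronglyMeasurable f (vm h')) (v : F) :
    AEStronglyMeasurable (fun x => f (sec D v x)) (vm h) :=
  hf.restrict.comp_measurePreserving (measurePreserving_sec H v)

theorem lintegral_unfold (H : Lw D h h') {f : D.cov F → ℝ≥0∞} (hf : AEMeasurable f (vm h')) :
    ∫⁻ e, f e ∂vm h' = ∫⁻ x, ∑' v, f (sec D v x) ∂vm h := by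
  rw [lintegral_eq_tsum H, lintegral_tsum (aemeasurable_sec H hf)]

theorem ae_iff_sec (H : Lw D h h') {p : D.cov F → Prop} :
    (∀ᵐ e ∂vm h', p e) ↔ ∀ᵐ x ∂vm h, ∀ v, p (sec D v x) := by
  rw [vm_eq_sum H, Measure.ae_sum_iff, ae_all_iff]
  exact forall_congr' fun v => (emb_sec D v).ae_map_iff

theorem ae_pr (H : Lw D h h') {p : X → Prop} (hp : ∀ᵐ x ∂vm h, p x) : ∀ᵐ e ∂vm h', p (D.pr e) :=
  (ae_iff_sec H).2 (hp.mono fun _ hx _ => hx)

theorem qmp_pr (H : Lw D h h') : Measure.QuasiMeasurePreserving D.pr (vm h') (vm h) := by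
  refine ⟨measurable_pr D, Measure.AbsolutelyContinuous.mk fun S hS h0 => ?_⟩
  rw [Measure.map_apply (measurable_pr D) hS]
  exact measure_eq_zero_iff_ae_notMem.2 (ae_pr H (measure_eq_zero_iff_ae_notMem.1 h0))

section Bochner

variable {W : Type*} [NormedAddCommGroup W]

theorem integrableOn_FD_one (H : Lw D h h') (v : F) (f : D.cov F → W) :
    IntegrableOn f (FD D {v}) (vm h') ↔ Integrable (fun x => f (sec D v x)) (vm h) := by
  rw [IntegrableOn, restrict_FD H, (emb_sec D v).integrable_map_iff]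
  rfl

theorem integrable_sec (H : Lw D h h') {f : D.cov F → W} (hf : Integrable f (vm h')) (v : F) :
    Integrable (fun x => f (sec D v x)) (vm h) := (integrableOn_FD_one H v f).1 hf.integrableOn

theorem ae_summable (H : Lw D h h') {f : D.cov F → W} (hf : Integrable f (vm h')) :
    ∀ᵐ x ∂vm h, Summable fun v => ‖f (sec D v x)‖ := by
  have h1 : ∫⁻ x, ∑' v, ‖f (sec D v x)‖ₑ ∂vm h ≠ ⊤ := by
    rw [← lintegral_unfold H (f := fun e => ‖f e‖ₑ) hf.1.enorm]
    exact hf.2.ne
  have h2 := ae_lt_top' (AEMeasurable.tsum fun v => (aesm_sec H hf.1 v).enorm) h1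
  filter_upwards [h2] with x hx
  exact tsum_enorm_ne_top_iff_summable_norm.1 hx.ne

variable [NormedSpace ℝ W]

theorem setIntegral_FD_one (H : Lw D h h') (v : F) (f : D.cov F → W) :
    ∫ e in FD D {v}, f e ∂vm h' = ∫ x, f (sec D v x) ∂vm h := by
  rw [restrict_FD H, (emb_sec D v).integral_map]

theorem setIntegral_pr (H : Lw D h h') (v : F) (u : X → W) :
    ∫ e in FD D {v}, u (D.pr e) ∂vm h' = ∫ x, u x ∂vm h := setIntegral_FD_one H v _

theorem hasSum_integral (H : Lw D h h') {f : D.cov F → W} (hf : Integrable f (vm h')) :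
    HasSum (fun v => ∫ x, f (sec D v x) ∂vm h) (∫ e, f e ∂vm h') := by
  rw [vm_eq_sum H] at hf ⊢
  simpa only [(emb_sec D _).integral_map] using hasSum_integral_measure hf

theorem integral_unfold (H : Lw D h h') {f : D.cov F → W} (hf : Integrable f (vm h')) :
    ∫ e, f e ∂vm h' = ∫ x, ∑' v, f (sec D v x) ∂vm h := by
  rw [integral_tsum (aesm_sec H hf.1), (hasSum_integral H hf).tsum_eq]
  rw [← lintegral_eq_tsum H fun e => ‖f e‖ₑ]
  exact hf.2.ne

end Bochner

/-! ### maps of coverings -/

theorem map_cmap {G' : Type} [Group G'] {D' : MonD A G'} {F' : Type} [MulAction G' F']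
    [Countable F'] [MeasurableSpace (D'.cov F')] [BorelSpace (D'.cov F')]
    {h'' : HM (KB (D'.atl F'))⁻¹} (H : Lw D h h') (H' : Lw D' h h'') {f : F → F'}
    (hf : Cpt D D' f) (v : F) :
    ((vm h').restrict (FD D {v})).map (cmap D D' f) = (vm h'').restrict (FD D' {f v}) := by
  rw [restrict_FD H, restrict_FD H', Measure.map_map (continuous_cmap hf).measurable
    (measurable_sec D v)]
  congr 1
  funext x
  exact cmap_sec D hf v x

theorem map_cmap_of_injOn {G' : Type} [Group G'] {D' : MonD A G'} {F' : Type} [MulAction G' F']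
    [Countable F'] [MeasurableSpace (D'.cov F')] [BorelSpace (D'.cov F')]
    {h'' : HM (KB (D'.atl F'))⁻¹} (H : Lw D h h') (H' : Lw D' h h'') {f : F → F'}
    (hf : Cpt D D' f) {T : Set F} (hT : InjOn f T) :
    ((vm h').restrict (FD D T)).map (cmap D D' f) = (vm h'').restrict (FD D' (f '' T)) := by
  rw [restrict_FD_sum (vm h'), restrict_FD_sum (vm h''),
    Measure.map_sum (continuous_cmap hf).aemeasurable]
  simp only [map_cmap H H' hf]
  exact Measure.sum_comp_equiv (Equiv.Set.imageOfInjOn f T hT)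
    fun w : f '' T => (vm h'').restrict (FD D' {(w : F')})

end

/-! ### deck transformations -/

section deck

variable {n : ℕ} {X : Type} [TopologicalSpace X] {A : Atl n X} [Countable A.ι]
variable {G : Type} [Group G] {D : MonD A G} [Countable G]
variable [MeasurableSpace X] [BorelSpace X] [MeasurableSpace (D.cov G)] [BorelSpace (D.cov G)]
variable {h : HM (KB A)⁻¹} {h' : HM (KB (D.atl G))⁻¹}

theorem measurePreserving_deck (H : Lw D h h') (g : G) :
    MeasurePreserving (fun e : D.cov G => g • e) (vm h') (vm h') := by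
  have hm : Measurable fun e : D.cov G => g • e := (continuous_const_smul g).measurable
  refine ⟨hm, ?_⟩
  rw [vm_eq_sum H, Measure.map_sum hm.aemeasurable]
  have h1 : ∀ v : G, ((vm h).map (sec D v)).map (fun e : D.cov G => g • e) =
      (vm h).map (sec D (v * g⁻¹)) := by
    intro v
    rw [Measure.map_map hm (measurable_sec D v)]
    congr 1
    funext x
    exact deck_sec D g v x
  simp only [h1]
  exact Measure.sum_comp_equiv (Equiv.mulRight g⁻¹) fun v => (vm h).map (sec D v)

theorem smulInv (H : Lw D h h') : SMulInvariantMeasure G (D.cov G) (vm h') :=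
  ⟨fun g _ hs => (measurePreserving_deck H g).measure_preimage hs.nullMeasurableSet⟩

theorem isFD (μ : Measure (D.cov G)) {H : Subgroup G} {T : Set G}
    (hT : Subgroup.IsComplement T (H : Set G)) : IsFundamentalDomain H (FD D T) μ :=
  IsFundamentalDomain.mk' (measurableSet_FD D T).nullMeasurableSet (existsUnique_FD D hT)

theorem isFD_one (μ : Measure (D.cov G)) (v : G) : IsFundamentalDomain G (FD D {v}) μ := by
  refine IsFundamentalDomain.mk' (measurableSet_FD D _).nullMeasurableSet fun e =>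
    ⟨v⁻¹ * cd D e, ?_, fun g hg => ?_⟩
  · simp [mem_FD, cd_deck]
  · have hg' : cd D (g • e) = v := hg
    rw [cd_deck] at hg'
    rw [← hg']
    group

theorem integral_deck (H : Lw D h h') {W : Type*} [NormedAddCommGroup W] [NormedSpace ℝ W]
    (g : G) (f : D.cov G → W) : ∫ e, f (g • e) ∂vm h' = ∫ e, f e ∂vm h' :=
  (measurePreserving_deck H g).integral_comp (Homeomorph.smul g).measurableEmbedding f

theorem lintegral_deck (H : Lw D h h') (g : G) (f : D.cov G → ℝ≥0∞) :
    ∫⁻ e, f (g • e) ∂vm h' = ∫⁻ e, f e ∂vm h' :=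
  (measurePreserving_deck H g).lintegral_comp_emb (Homeomorph.smul g).measurableEmbedding f

theorem integrable_deck (H : Lw D h h') {W : Type*} [NormedAddCommGroup W] (g : G)
    {f : D.cov G → W} (hf : Integrable f (vm h')) : Integrable (fun e => f (g • e)) (vm h') :=
  (measurePreserving_deck H g).integrable_comp_of_integrable hf

/-- unfolding on a fundamental domain -/
theorem lintegral_FD_tsum (H : Lw D h h') {f : D.cov G → ℝ≥0∞} (hf : AEMeasurable f (vm h'))
    (v : G) : ∫⁻ e, f e ∂vm h' = ∫⁻ e in FD D {v}, ∑' g : G, f (g • e) ∂vm h' := by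
  rw [setLIntegral_FD_one H, lintegral_unfold H hf]
  simp only [tsum_deck, pr_sec]

theorem integral_FD_tsum (H : Lw D h h') {W : Type*} [NormedAddCommGroup W] [NormedSpace ℝ W]
    {f : D.cov G → W} (hf : Integrable f (vm h')) (v : G) :
    ∫ e, f e ∂vm h' = ∫ e in FD D {v}, ∑' g : G, f (g • e) ∂vm h' := by
  rw [setIntegral_FD_one H, integral_unfold H hf]
  simp only [tsum_deck, pr_sec]

/-- integrals of invariant functions -/
theorem setIntegral_desc (H : Lw D h h') {W : Type*} [NormedAddCommGroup W] [NormedSpace ℝ W]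
    {f : D.cov G → W} (hf : ∀ (g : G) (e : D.cov G), f (g • e) = f e) (v : G) :
    ∫ e in FD D {v}, f e ∂vm h' = ∫ x, D.desc f x ∂vm h := by
  rw [← setIntegral_pr H v]
  simp only [D.desc_pr hf]

end deck

end Crest.Agent.X261.Cov.D
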