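import Crest.Agent.X261.Cov.B
import Crest.Agent.X277.AN.LSE
import Crest.Agent.T223.Hm0_77
import Crest.Agent.R273.RMan4_798

/-!
# X261, package COV (helper3), part C: derivative bounds, exhaustion, cut-offs

* `Bd K P C`, `exists_bd` : the constant of the partition of unity;
* `abs_hsf_ip`, `gq_ip`, `fderiv_ip` : `|∂∂̄ Ip a| ≤ C L ω`, `|∂ Ip a|² ≤ C L² ω` where `a` moves by
  at most `L` along the generators;
* `ex D P` : smooth proper exhaustion of `D.cov G`; `dd D P` : invariant two-point function;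
* `exists_cutoff`, `cut_pull : T223.Hm.Cut (pullKah D G K)`;
* `rho D P` : `∑ g, rho (g • e) = 1`.
-/

set_option autoImplicit false
set_option linter.unusedSectionVars false

open Set Filter Topology Complex
open scoped ContDiff Matrix ComplexConjugate

namespace Crest.Agent.X261.Cov.C

open Crest.Agent.R275.Geo Crest.Agent.R275.EDR890 Crest.Agent.R273.UCov_914
open Crest.Agent.R273.Kah_333 Crest.Agent.R273.Hess_333 Crest.Agent.R273.HessB_333
open Crest.Agent.R273.RMan4_798 (pullKah)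
open Crest.Agent.R273.FIa0_597 (gr)
open Crest.Agent.X277.AN Crest.Agent.X261.Cov.A Crest.Agent.X261.Cov.B

noncomputable section

variable {n : ℕ} {X : Type} [TopologicalSpace X] {A : Atl n X}

/-! ### generalities -/

theorem hq_eq_qf (S : Matrix (Fin n) (Fin n) ℂ) (v : Fin n → ℂ) : T223.Hm.hq S v = qf S v := by
  unfold T223.Hm.hq qf
  congr 1
  rw [Finset.sum_comm]
  refine Finset.sum_congr rfl fun b _ => ?_
  change star (v b) * (∑ a, S a b * v a) = _
  rw [Finset.mul_sum]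
  refine Finset.sum_congr rfl fun a _ => ?_
  rw [RCLike.star_def]
  ring

theorem dl_eq_gf (u : X → ℝ) (i : A.ι) (x : X) (a : Fin n) :
    R275.OmT75.dl A i a (fun y => (u y : ℂ)) x = gf A u i x a := by
  unfold R275.OmT75.dl R275.OmT75.dj gf gr wd wdL
  rw [cI_false, neg_smul, sub_eq_add_neg]
  rfl

theorem fderiv_eq_re {u : Cn n → ℝ} {z : Cn n} (hu : DifferentiableAt ℝ u z) (w : Cn n) :
    fderiv ℝ u z w = 2 * (∑ a, gr u z a * w a).re := by
  have h1 : fderiv ℝ (cu u) z w = (fderiv ℝ u z w : ℂ) := by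
    have := (Complex.ofRealCLM.hasFDerivAt.comp z hu.hasFDerivAt).fderiv
    exact congrArg (fun L => L w) this
  have h2 := apply_eq_sum (fderiv ℝ (cu u) z) w
  rw [h1, Fintype.sum_prod_type, Fintype.sum_bool] at h2
  have h3 : ∑ a, ze (true, a) w • wdL (true, a) (fderiv ℝ (cu u) z) =
      conj (∑ a, gr u z a * w a) := by
    rw [map_sum]
    refine Finset.sum_congr rfl fun a _ => ?_
    have h4 := conj_wd_real (false, a) hu
    rw [map_mul, mul_comm]
    change conj (w a) * wd (true, a) (cu u) z = conj (w a) * conj (wd (false, a) (cu u) z)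
    rw [h4]
    rfl
  have h5 : ∑ a, ze (false, a) w • wdL (false, a) (fderiv ℝ (cu u) z) = ∑ a, gr u z a * w a :=
    Finset.sum_congr rfl fun a _ => mul_comm _ _
  rw [h3, h5] at h2
  have h6 := congrArg Complex.re h2
  rw [Complex.ofReal_re, Complex.add_re, Complex.conj_re] at h6
  linarith

theorem abs_fderiv_le {u : Cn n → ℝ} {z : Cn n} (hu : DifferentiableAt ℝ u z) (w : Cn n) :
    |fderiv ℝ u z w| ≤ 2 * ‖∑ a, gr u z a * w a‖ := by
  rw [fderiv_eq_re hu, abs_mul, abs_two]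
  exact mul_le_mul_of_nonneg_left (Complex.abs_re_le_norm _) zero_le_two

theorem qx_sum {κ : Type*} (T : Finset κ) {f : κ → X → ℝ} (hf : ∀ k, A.Sm (f k)) (c : κ → ℝ)
    {i : A.ι} {x : X} (hx : x ∈ (A.e i).source) (ξ : Fin n → ℂ) :
    A.Sm (fun y => ∑ k ∈ T, c k * f k y) ∧
    qf (hsf A (fun y => ∑ k ∈ T, c k * f k y) i x) ξ = ∑ k ∈ T, c k * qf (hsf A (f k) i x) ξ ∧
    gf A (fun y => ∑ k ∈ T, c k * f k y) i x = ∑ k ∈ T, (c k : ℂ) • gf A (f k) i x := by
  classical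
  induction T using Finset.induction_on with
  | empty =>
    simp only [Finset.sum_empty]
    exact ⟨sm_const 0, qh_const 0 i x ξ, gr_const 0⟩
  | insert k T hk ih =>
    simp only [Finset.sum_insert hk]
    have h1 := sm_cmul (c k) (hf k)
    refine ⟨sm_add h1 ih.1, ?_, ?_⟩
    · rw [qh_add h1 ih.1 hx, qh_cmul _ (hf k) hx, ih.2.1]
    · rw [gf_add (sx_of_sm h1 hx) (sx_of_sm ih.1 hx), gf_cmul _ (sx_of_sm (hf k) hx), ih.2.2]

/-- the constant attached to a partition of unity -/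
def Bd (K : Kah A) (P : Part A) (C : ℝ) : Prop :=
  0 ≤ C ∧ ∀ i, ∀ x ∈ (A.e i).source, ∀ ξ : Fin n → ℂ,
    ∑ᶠ j, |qf (hsf A (P.ψ j) i x) ξ| ≤ C * qf (K.g i x) ξ ∧
    (∑ᶠ j, ‖∑ a, gf A (P.ψ j) i x a * ξ a‖) ^ 2 ≤ C * qf (K.g i x) ξ

theorem exists_bd [CompactSpace X] [Finite A.ι] (K : Kah A) (P : Part A) : ∃ C, Bd K P C := by
  have := Fintype.ofFinite A.ι
  choose C1 h1 h1' using fun j => exists_hsf_bound K (P.ψ_sm j)
  choose C2 h2 h2' using fun j => exists_hsf_bound K (sm_neg (P.ψ_sm j))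
  choose C3 h3 h3' using fun j => exists_gq_bound K (P.ψ_sm j)
  have p1 : 0 ≤ ∑ j, (C1 j + C2 j) := Finset.sum_nonneg fun j _ => add_nonneg (h1 j) (h2 j)
  have p2 : 0 ≤ (Fintype.card A.ι : ℝ) * ∑ j, C3 j :=
    mul_nonneg (Nat.cast_nonneg _) (Finset.sum_nonneg fun j _ => h3 j)
  refine ⟨∑ j, (C1 j + C2 j) + Fintype.card A.ι * ∑ j, C3 j, add_nonneg p1 p2,
    fun i x hx ξ => ?_⟩
  have hK := nn_kah K i x hx ξ
  rw [finsum_eq_sum_of_fintype, finsum_eq_sum_of_fintype, add_mul]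
  constructor
  · refine le_add_of_le_of_nonneg ?_ (mul_nonneg p2 hK)
    rw [Finset.sum_mul]
    refine Finset.sum_le_sum fun j _ => ?_
    have a1 := (h1' j).2 i x hx ξ
    have a2 := (h2' j).2 i x hx ξ
    rw [qx_neg (sx_of_sm (P.ψ_sm j) hx)] at a2
    rw [Pi.smul_apply, Pi.smul_apply, qf_smul] at a1 a2
    have a3 := mul_nonneg (h1 j) hK
    have a4 := mul_nonneg (h2 j) hK
    rw [abs_le, add_mul]
    constructor <;> linarith
  · refine le_add_of_nonneg_of_le (mul_nonneg p1 hK) ?_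
    refine (sq_sum_le_card_mul_sum_sq (s := Finset.univ)).trans ?_
    rw [Finset.card_univ, mul_assoc, Finset.sum_mul]
    exact mul_le_mul_of_nonneg_left (Finset.sum_le_sum fun j _ => h3' j i x hx ξ)
      (Nat.cast_nonneg _)

/-! ### bounds for the interpolation -/

variable {G : Type} [Group G] (D : MonD A G) {F : Type} [MulAction G F] [Finite A.ι]
variable {K : Kah A} {P : Part A} {C : ℝ}

theorem hsf_ip (a : F → ℝ) {p : A.ι × F} {e : D.cov F} (he : e ∈ D.sheet p.1 p.2) :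
    hsf (D.atl F) (Ip D P a) p e = hsf A (loc D P a p) p.1 (D.pr e) :=
  hess_congr (read_ip_ev D P a p ((A.e p.1).map_source he.1))

theorem gf_ip (a : F → ℝ) {p : A.ι × F} {e : D.cov F} (he : e ∈ D.sheet p.1 p.2) :
    gf (D.atl F) (Ip D P a) p e = gf A (loc D P a p) p.1 (D.pr e) :=
  gr_congr (read_ip_ev D P a p ((A.e p.1).map_source he.1))

theorem loc_eq' [Fintype A.ι] (a : F → ℝ) (p : A.ι × F) : loc D P a p =
    fun x => ∑ j, (a (cst D p.1 j • p.2) - a p.2) * P.ψ j x + a p.2 := by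
  funext x
  rw [B.loc_eq]
  simp only [smul_eq_mul, mul_comm]

theorem abs_hsf_ip (hC : Bd K P C) {a : F → ℝ} {p : A.ι × F} {L : ℝ} (h : LipAt D a p.2 L)
    {e : D.cov F} (he : e ∈ D.sheet p.1 p.2) (ξ : Fin n → ℂ) :
    |qf (hsf (D.atl F) (Ip D P a) p e) ξ| ≤ C * L * qf (K.g p.1 (D.pr e)) ξ := by
  have := Fintype.ofFinite A.ι
  have hL := h.nonneg D he.1
  obtain ⟨h1, h2, -⟩ := qx_sum Finset.univ P.ψ_sm (fun j => a (cst D p.1 j • p.2) - a p.2) he.1 ξ
  rw [hsf_ip D a he, loc_eq', qh_add_const h1 _ he.1, h2]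
  have h3 := (hC.2 p.1 _ he.1 ξ).1
  rw [finsum_eq_sum_of_fintype] at h3
  refine (Finset.abs_sum_le_sum_abs _ _).trans ?_
  calc ∑ j, |(a (cst D p.1 j • p.2) - a p.2) * qf (hsf A (P.ψ j) p.1 (D.pr e)) ξ|
      ≤ ∑ j, L * |qf (hsf A (P.ψ j) p.1 (D.pr e)) ξ| := by
        refine Finset.sum_le_sum fun j _ => ?_
        rw [abs_mul]
        exact mul_le_mul_of_nonneg_right (h.cst D hL p.1 j) (abs_nonneg _)
    _ ≤ L * (C * qf (K.g p.1 (D.pr e)) ξ) := by
        rw [← Finset.mul_sum]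
        exact mul_le_mul_of_nonneg_left h3 hL
    _ = _ := by ring

theorem gq_ip (hC : Bd K P C) {a : F → ℝ} {p : A.ι × F} {L : ℝ} (h : LipAt D a p.2 L)
    {e : D.cov F} (he : e ∈ D.sheet p.1 p.2) (ξ : Fin n → ℂ) :
    gq (D.atl F) (Ip D P a) p e ξ ≤ C * L ^ 2 * qf (K.g p.1 (D.pr e)) ξ := by
  have := Fintype.ofFinite A.ι
  have hL := h.nonneg D he.1
  obtain ⟨h1, -, h2⟩ := qx_sum Finset.univ P.ψ_sm (fun j => a (cst D p.1 j • p.2) - a p.2) he.1 ξ
  unfold gq
  rw [gf_ip D a he, loc_eq', gf_add_const _ (sx_of_sm h1 he.1), h2]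
  have h3 := (hC.2 p.1 _ he.1 ξ).2
  rw [finsum_eq_sum_of_fintype] at h3
  have h4 : ∑ b, (∑ j, ((a (cst D p.1 j • p.2) - a p.2 : ℝ) : ℂ) • gf A (P.ψ j) p.1 (D.pr e)) b *
      ξ b = ∑ j, ((a (cst D p.1 j • p.2) - a p.2 : ℝ) : ℂ) *
        ∑ b, gf A (P.ψ j) p.1 (D.pr e) b * ξ b := by
    simp only [Finset.sum_apply, Pi.smul_apply, smul_eq_mul, Finset.sum_mul, Finset.mul_sum,
      mul_assoc]
    exact Finset.sum_comm
  rw [h4]
  have h5 : ‖∑ j, ((a (cst D p.1 j • p.2) - a p.2 : ℝ) : ℂ) *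
      ∑ b, gf A (P.ψ j) p.1 (D.pr e) b * ξ b‖ ≤
      L * ∑ j, ‖∑ b, gf A (P.ψ j) p.1 (D.pr e) b * ξ b‖ := by
    rw [Finset.mul_sum]
    refine (norm_sum_le _ _).trans (Finset.sum_le_sum fun j _ => ?_)
    rw [norm_mul, Complex.norm_real]
    exact mul_le_mul_of_nonneg_right (h.cst D hL p.1 j) (norm_nonneg _)
  calc _ ≤ (L * ∑ j, ‖∑ b, gf A (P.ψ j) p.1 (D.pr e) b * ξ b‖) ^ 2 :=
        pow_le_pow_left₀ (norm_nonneg _) h5 2
    _ = L ^ 2 * (∑ j, ‖∑ b, gf A (P.ψ j) p.1 (D.pr e) b * ξ b‖) ^ 2 := by ring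
    _ ≤ L ^ 2 * (C * qf (K.g p.1 (D.pr e)) ξ) := mul_le_mul_of_nonneg_left h3 (sq_nonneg _)
    _ = _ := by ring

/-- vector valued functions -/
theorem fderiv_ip (hC : Bd K P C) {W : Type*} [NormedAddCommGroup W] [NormedSpace ℝ W]
    {a : F → W} {p : A.ι × F} {L : ℝ} (h : LipAt D a p.2 L)
    {e : D.cov F} (he : e ∈ D.sheet p.1 p.2) (w : Cn n) :
    ‖fderiv ℝ (fun z => Ip D P a (((D.atl F).e p).symm z)) ((D.atl F).e p e) w‖ ^ 2 ≤
      4 * C * L ^ 2 * qf (K.g p.1 (D.pr e)) (fun b => w b) := by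
  have := Fintype.ofFinite A.ι
  have hL := h.nonneg D he.1
  have hz := (A.e p.1).map_source he.1
  have hd : ∀ j, DifferentiableAt ℝ (fun z => P.ψ j ((A.e p.1).symm z)) (A.e p.1 (D.pr e)) :=
    fun j => (sm_contDiffAt (P.ψ_sm j) p.1 hz).differentiableAt (by simp)
  have h1 : HasFDerivAt (fun z => loc D P a p ((A.e p.1).symm z))
      (∑ j, (fderiv ℝ (fun z => P.ψ j ((A.e p.1).symm z)) (A.e p.1 (D.pr e))).smulRight
        (a (cst D p.1 j • p.2) - a p.2)) (A.e p.1 (D.pr e)) := by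
    simp only [B.loc_eq]
    exact (HasFDerivAt.fun_sum fun j _ => (hd j).hasFDerivAt.smul_const _).add_const _
  have h2 : fderiv ℝ (fun z => Ip D P a (((D.atl F).e p).symm z)) ((D.atl F).e p e) = _ :=
    ((read_ip_ev D P a p hz).fderiv_eq).trans h1.fderiv
  rw [h2]
  have h3 := (hC.2 p.1 _ he.1 fun b => w b).2
  rw [finsum_eq_sum_of_fintype] at h3
  have h5 : ‖(∑ j, (fderiv ℝ (fun z => P.ψ j ((A.e p.1).symm z)) (A.e p.1 (D.pr e))).smulRight
        (a (cst D p.1 j • p.2) - a p.2)) w‖ ≤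
      2 * L * ∑ j, ‖∑ b, gf A (P.ψ j) p.1 (D.pr e) b * w b‖ := by
    rw [_root_.sum_apply, Finset.mul_sum]
    refine (norm_sum_le _ _).trans (Finset.sum_le_sum fun j _ => ?_)
    rw [ContinuousLinearMap.smulRight_apply, norm_smul, Real.norm_eq_abs]
    have h6 := mul_le_mul (abs_fderiv_le (hd j) w) (h.cst D hL p.1 j) (norm_nonneg _)
      (by positivity)
    refine h6.trans (le_of_eq ?_)
    unfold gf
    ring
  calc _ ≤ (2 * L * ∑ j, ‖∑ b, gf A (P.ψ j) p.1 (D.pr e) b * w b‖) ^ 2 :=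
        pow_le_pow_left₀ (norm_nonneg _) h5 2
    _ = 4 * L ^ 2 * (∑ j, ‖∑ b, gf A (P.ψ j) p.1 (D.pr e) b * w b‖) ^ 2 := by ring
    _ ≤ 4 * L ^ 2 * (C * qf (K.g p.1 (D.pr e)) fun b => w b) :=
        mul_le_mul_of_nonneg_left h3 (by positivity)
    _ = _ := by ring

/-- smooth with `|∂∂̄ u| ≤ c ω`, `|∂ u|² ≤ c' ω` -/
structure Tame {M : Type} [TopologicalSpace M] {B : Atl n M} (K : Kah B) (u : M → ℝ) (c c' : ℝ) :
    Prop where
  sm : B.Sm u
  hs : ∀ i, ∀ x ∈ (B.e i).source, ∀ ξ, |qf (hsf B u i x) ξ| ≤ c * qf (K.g i x) ξ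
  gr : ∀ i, ∀ x ∈ (B.e i).source, ∀ ξ, gq B u i x ξ ≤ c' * qf (K.g i x) ξ

theorem Tame.mono {M : Type} [TopologicalSpace M] {B : Atl n M} {K : Kah B} {u : M → ℝ}
    {c c' d d' : ℝ} (h : Tame K u c c') (h1 : c ≤ d) (h2 : c' ≤ d') : Tame K u d d' :=
  ⟨h.sm, fun i x hx ξ => (h.hs i x hx ξ).trans (mul_le_mul_of_nonneg_right h1 (nn_kah K i x hx ξ)),
    fun i x hx ξ => (h.gr i x hx ξ).trans (mul_le_mul_of_nonneg_right h2 (nn_kah K i x hx ξ))⟩

theorem Tame.qp {M : Type} [TopologicalSpace M] {B : Atl n M} {K : Kah B} {u : M → ℝ}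
    {c c' : ℝ} (h : Tame K u c c') : QP (c • K.g) u := by
  refine ⟨h.sm, fun i x hx ξ => ?_⟩
  rw [Pi.smul_apply, Pi.smul_apply, qf_smul]
  have := (abs_le.1 (h.hs i x hx ξ)).1
  linarith

theorem tame_ip (hC : Bd K P C) {a : F → ℝ} {L : ℝ} (h : Lip D a L) :
    Tame (pullKah D F K) (Ip D P a) (C * L) (C * L ^ 2) :=
  ⟨sm_ip D P a, fun p _ he ξ => abs_hsf_ip D hC (h p.2) he ξ,
    fun p _ he ξ => gq_ip D hC (h p.2) he ξ⟩

/-! ### exhaustion -/

variable [ConnectedSpace (D.cov G)]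

variable (P) in
/-- the smooth exhaustion -/
def ex : D.cov G → ℝ := Ip D P (wl D)

theorem tame_ex (hC : Bd K P C) : Tame (pullKah D G K) (ex D P) C C := by
  have := tame_ip D hC (lip_wl D)
  rwa [one_pow, mul_one] at this

theorem continuous_ex : Continuous (ex D P) := continuous_ip D P _

theorem ex_nonneg (hP : PosP P) (e : D.cov G) : 0 ≤ ex D P e := ip_nonneg D hP (wl_nonneg D) e

theorem abs_ex_sub (hP : PosP P) {i : A.ι} {e : D.cov G} (he : D.pr e ∈ (A.e i).source) :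
    |ex D P e - wl D (D.co i e)| ≤ 1 := norm_ip_sub_le D hP (lip_wl D _) ⟨he, rfl⟩

theorem abs_ex_deck (hP : PosP P) (g : G) (e : D.cov G) :
    |ex D P (g • e) - ex D P e| ≤ wl D g := by
  unfold ex
  rw [ip_deck D P (wl D), ← ip_sub, ← sub_zero (Ip D P _ e)]
  refine norm_ip_le (W := ℝ) D hP fun j _ => ?_
  rw [sub_zero, ← wl_inv D g]
  exact abs_wl_mul' D _ _

theorem abs_ex_deck' (hP : PosP P) (g : G) (e : D.cov G) :
    |ex D P (g • e) - wl D g| ≤ ex D P e := by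
  unfold ex
  rw [ip_deck D P (wl D), ← ip_const D P (wl D g) e, ← ip_sub]
  refine (norm_ip_le_ip (W := ℝ) D hP _ e).trans (ip_mono D hP fun j _ => ?_)
  rw [← wl_inv D g]
  exact abs_wl_mul D _ _

theorem isCompact_ex [CompactSpace X] [T2Space X] (hP : PosP P) (R : ℝ) :
    IsCompact {e | ex D P e ≤ R} := by
  refine isCompact_of_finite D (isClosed_le (continuous_ex D) continuous_const)
    (finite_wl D (R + 1)) fun e he => ?_
  obtain ⟨i, hi⟩ := A.cover (D.pr e)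
  have h1 := (abs_le.1 (abs_ex_sub D hP hi)).1
  have h2 : ex D P e ≤ R := he
  exact ⟨i, hi, show wl D _ ≤ R + 1 by linarith⟩

theorem tendsto_ex [CompactSpace X] [T2Space X] (hP : PosP P) :
    Tendsto (ex D P) (cocompact _) atTop := by
  refine tendsto_atTop.2 fun R => ?_
  filter_upwards [(isCompact_ex D hP R).compl_mem_cocompact] with e he
  exact (not_le.1 (show ¬ex D P e ≤ R from he)).le

theorem exists_ex_le {Z : Set (D.cov G)} (hZ : IsCompact Z) : ∃ R, ∀ e ∈ Z, ex D P e ≤ R := by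
  obtain ⟨R, hR⟩ := hZ.bddAbove_image (continuous_ex D (P := P)).continuousOn
  exact ⟨R, fun e he => hR ⟨e, he, rfl⟩⟩

/-- functions of the word length -/
theorem tame_wl (hC : Bd K P C) {κ : ℝ → ℝ} {c : ℝ} (hc : 0 ≤ c)
    (hκ : ∀ s t, |κ s - κ t| ≤ c * |s - t|) :
    Tame (pullKah D G K) (Ip D P fun v => κ (wl D v)) (C * c) (C * c ^ 2) := by
  have := tame_ip D hC ((lip_wl D).comp D hc hκ)
  rwa [mul_one] at this

/-- **cut-off functions** : `1` on `{ex ≤ R}`, `0` on `{R + T + 2 ≤ ex}` -/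
theorem exists_cut (hP : PosP P) (hC : Bd K P C) (R : ℝ) {T : ℝ} (hT : 0 < T) :
    ∃ χ : D.cov G → ℝ, Tame (pullKah D G K) χ (C / T) (C / T ^ 2) ∧ (∀ e, 0 ≤ χ e ∧ χ e ≤ 1) ∧
      (∀ e, ex D P e ≤ R → χ e = 1) ∧ ∀ e, R + T + 2 ≤ ex D P e → χ e = 0 := by
  set κ : ℝ → ℝ := fun s => max 0 (min 1 ((R + T + 1 - s) / T)) with hκ
  have hl : ∀ s t, |κ s - κ t| ≤ T⁻¹ * |s - t| := by
    intro s t
    refine (abs_max_sub_max_le_max _ _ _ _).trans ?_
    rw [sub_self, abs_zero]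
    refine max_le (by positivity) ((abs_min_sub_min_le_max _ _ _ _).trans ?_)
    rw [sub_self, abs_zero]
    refine max_le (by positivity) (le_of_eq ?_)
    rw [← sub_div, abs_div, abs_of_pos hT, show R + T + 1 - s - (R + T + 1 - t) = -(s - t) by ring,
      abs_neg, div_eq_inv_mul]
  refine ⟨Ip D P fun v => κ (wl D v), ?_, fun e => ⟨?_, ?_⟩, fun e he => ?_, fun e he => ?_⟩
  · have := tame_wl D hC (inv_pos.2 hT).le hl
    rwa [inv_pow, ← div_eq_mul_inv, ← div_eq_mul_inv] at this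
  · exact ip_nonneg D hP (fun v => le_max_left _ _) e
  · exact ip_le D hP fun j _ => max_le zero_le_one (min_le_left _ _)
  · refine ip_eq_of D P fun j hj => ?_
    have h1 := (abs_le.1 (abs_ex_sub D hP hj)).1
    have h2 : 1 ≤ (R + T + 1 - wl D (D.co j e)) / T := by
      rw [le_div_iff₀ hT]; linarith
    simp only [hκ]
    rw [min_eq_left h2, max_eq_right zero_le_one]
  · refine ip_eq_of D P fun j hj => ?_
    have h1 := (abs_le.1 (abs_ex_sub D hP hj)).2
    have h2 : (R + T + 1 - wl D (D.co j e)) / T ≤ 0 :=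
      div_nonpos_of_nonpos_of_nonneg (by linarith) hT.le
    simp only [hκ]
    exact max_eq_left ((min_le_right _ _).trans h2)

/-- cut-off functions with small first and second derivatives -/
theorem exists_cutoff [CompactSpace X] [T2Space X] (K : Kah A) (P : Part A) {Z : Set (D.cov G)}
    (hZ : IsCompact Z) {ε : ℝ} (hε : 0 < ε) :
    ∃ χ : D.cov G → ℝ, Tame (pullKah D G K) χ ε ε ∧ HasCompactSupport χ ∧
      (∀ e, 0 ≤ χ e ∧ χ e ≤ 1) ∧ ∀ e ∈ Z, ∀ᶠ e' in 𝓝 e, χ e' = 1 := by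
  obtain ⟨P', hP⟩ := exists_posP P
  obtain ⟨C, hC⟩ := exists_bd K P'
  obtain ⟨R, hR⟩ := exists_ex_le D (P := P') hZ
  have h0 := hC.1
  have hT : 0 < C / ε + 1 := by positivity
  obtain ⟨χ, h1, h2, h3, h4⟩ := exists_cut D hP hC (R + 1) hT
  have h5 : C / (C / ε + 1) ≤ ε := by
    rw [div_le_iff₀ hT, mul_add, mul_div_cancel₀ _ hε.ne']
    linarith
  refine ⟨χ, h1.mono h5 (le_trans ?_ h5), ?_, h2, fun e he => ?_⟩
  · refine div_le_div_of_nonneg_left h0 hT ?_
    have : 0 ≤ C / ε := by positivity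
    nlinarith
  · exact HasCompactSupport.intro (isCompact_ex D hP (R + 1 + (C / ε + 1) + 2))
      fun e he => h4 e (not_le.1 he).le
  · have h6 : ∀ᶠ e' in 𝓝 e, ex D P' e' < R + 1 :=
      (continuous_ex D).continuousAt.eventually_lt continuousAt_const (by linarith [hR e he])
    filter_upwards [h6] with e' he'
    exact h3 e' he'.le

/-- the lifted metric is complete in the sense of `T223.Hm` -/
theorem cut_pull [CompactSpace X] [T2Space X] (K : Kah A) (P : Part A) :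
    T223.Hm.Cut (pullKah D G K) := by
  intro Z hZ ε hε
  obtain ⟨χ, h1, h2, h3, h4⟩ := exists_cutoff D K P hZ hε
  refine ⟨χ, h1.sm, h2, fun e he => (h4 e he).self_of_nhds, h3, fun p e he v => ?_⟩
  rw [hq_eq_qf]
  simp only [dl_eq_gf]
  exact h1.gr p e he v

/-! ### the invariant two-point function -/

variable (P) in
/-- smooth invariant substitute of the distance -/
def dd (e e' : D.cov G) : ℝ := Ip D P (fun v => Ip D P (fun w => wl D (v * w⁻¹)) e') e

theorem dd_eq_sum [Fintype A.ι] (e e' : D.cov G) : dd D P e e' =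
    ∑ i, ∑ j, P.ψ i (D.pr e) * P.ψ j (D.pr e') * wl D (D.co i e * (D.co j e')⁻¹) := by
  simp only [dd, ip_eq_sum, smul_eq_mul, Finset.mul_sum, mul_assoc]

theorem dd_deck (g : G) (e e' : D.cov G) : dd D P (g • e) (g • e') = dd D P e e' := by
  have := Fintype.ofFinite A.ι
  simp only [dd_eq_sum, MonD.pr_deck, MonD.co_deck, mul_inv_rev, inv_inv, mul_assoc,
    inv_mul_cancel_left]

theorem dd_comm (e e' : D.cov G) : dd D P e e' = dd D P e' e := by
  have := Fintype.ofFinite A.ι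
  rw [dd_eq_sum, dd_eq_sum, Finset.sum_comm]
  refine Finset.sum_congr rfl fun i _ => Finset.sum_congr rfl fun j _ => ?_
  rw [← wl_inv D (D.co j e * _), mul_inv_rev, inv_inv, mul_comm (P.ψ j _)]

theorem dd_nonneg (hP : PosP P) (e e' : D.cov G) : 0 ≤ dd D P e e' :=
  ip_nonneg D hP (fun _ => ip_nonneg D hP (fun _ => wl_nonneg D _) e') e

theorem lip_dd (hP : PosP P) (e' : D.cov G) :
    Lip D (fun v => Ip D P (fun w => wl D (v * w⁻¹)) e') 1 := by
  intro v s hs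
  rw [← ip_sub, ← sub_zero (Ip D P _ e')]
  refine norm_ip_le D hP fun j _ => ?_
  rw [sub_zero, smul_eq_mul, mul_assoc]
  exact abs_wl_gen D hs _

theorem tame_dd (hP : PosP P) (hC : Bd K P C) (e' : D.cov G) :
    Tame (pullKah D G K) (fun e => dd D P e e') C C := by
  have := tame_ip D hC (lip_dd D hP e')
  rwa [one_pow, mul_one] at this

theorem abs_dd_sub (hP : PosP P) {i j : A.ι} {e e' : D.cov G} (hi : D.pr e ∈ (A.e i).source)
    (hj : D.pr e' ∈ (A.e j).source) :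
    |dd D P e e' - wl D (D.co i e * (D.co j e')⁻¹)| ≤ 2 := by
  have h1 : |dd D P e e' - Ip D P (fun w => wl D (D.co i e * w⁻¹)) e'| ≤ 1 :=
    norm_ip_sub_le D hP (lip_dd D hP e' _) ⟨hi, rfl⟩
  have h2 : |Ip D P (fun w => wl D (D.co i e * w⁻¹)) e' - wl D (D.co i e * (D.co j e')⁻¹)| ≤ 1 := by
    refine norm_ip_sub_le D hP (a := fun w => wl D (D.co i e * w⁻¹)) (fun s hs => ?_) ⟨hj, rfl⟩
    simp only [smul_eq_mul, mul_inv_rev, ← mul_assoc]
    exact (abs_wl_mul' D _ _).trans (wl_gen D (inv_mem_gens D hs))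
  have := abs_sub_le (dd D P e e') (Ip D P (fun w => wl D (D.co i e * w⁻¹)) e')
    (wl D (D.co i e * (D.co j e')⁻¹))
  linarith

theorem dd_triangle (hP : PosP P) (e e' e'' : D.cov G) :
    dd D P e e'' ≤ dd D P e e' + dd D P e' e'' := by
  have h1 : ∀ u : G, dd D P e e'' ≤ Ip D P (fun v => wl D (v * u⁻¹)) e +
      Ip D P (fun w => wl D (u * w⁻¹)) e'' := by
    intro u
    rw [← ip_add_const]
    refine ip_mono D hP fun i _ => ?_
    rw [add_comm, ← ip_add_const]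
    refine ip_mono D hP fun j _ => ?_
    have := wl_mul D (D.co i e * u⁻¹) (u * (D.co j e'')⁻¹)
    rw [mul_assoc, inv_mul_cancel_left] at this
    linarith
  have h2 := le_ip D hP (e := e') (a := fun u => Ip D P (fun v => wl D (v * u⁻¹)) e +
      Ip D P (fun w => wl D (u * w⁻¹)) e'') fun j _ => h1 _
  rw [ip_add] at h2
  have h3 : Ip D P (fun u => Ip D P (fun v => wl D (v * u⁻¹)) e) e' = dd D P e e' := by
    rw [dd_comm, dd]
    congr 1
    funext u
    congr 1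
    funext v
    rw [← wl_inv, mul_inv_rev, inv_inv]
  rw [h3] at h2
  exact h2

theorem dd_self (hP : PosP P) (e : D.cov G) : dd D P e e ≤ 1 := by
  refine ip_le D hP fun i hi => ip_le D hP fun j hj => ?_
  rw [D.co_eq hj hi, smul_eq_mul, mul_inv_cancel_right]
  exact wl_gen D (c_mem_gens D hj hi)

theorem continuous_dd : Continuous fun q : D.cov G × D.cov G => dd D P q.1 q.2 := by
  have := Fintype.ofFinite A.ι
  rw [continuous_iff_continuousAt]
  rintro ⟨e, e'⟩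
  obtain ⟨j, hj⟩ := A.cover (D.pr e')
  have hψ : ∀ k, Continuous (P.ψ k) := fun k => cont_of_sm (P.ψ_sm k)
  have h1 : Continuous fun q : D.cov G × D.cov G => ∑ k, P.ψ k (D.pr q.2) *
      Ip D P (fun v => wl D (v * (cst D j k • D.co j e')⁻¹)) q.1 :=
    continuous_finsetSum _ fun k _ => ((hψ k).comp (D.continuous_pr.comp continuous_snd)).mul
      ((continuous_ip D P _).comp continuous_fst)
  refine h1.continuousAt.congr ?_
  have h2 : ∀ᶠ q : D.cov G × D.cov G in 𝓝 (e, e'), q.2 ∈ D.sheet j (D.co j e') :=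
    continuous_snd.continuousAt.eventually ((D.isOpen_sheet j _).mem_nhds ⟨hj, rfl⟩)
  filter_upwards [h2] with q hq
  rw [dd_comm, dd, ip_eq_loc D P _ (p := (j, D.co j e')) hq, loc_eq_sum]
  refine Finset.sum_congr rfl fun k _ => ?_
  rw [smul_eq_mul]
  congr 2
  funext v
  rw [← wl_inv, mul_inv_rev, inv_inv]

theorem isCompact_dd [CompactSpace X] [T2Space X] (hP : PosP P) (e' : D.cov G) (R : ℝ) :
    IsCompact {e | dd D P e e' ≤ R} := by
  obtain ⟨j, hj⟩ := A.cover (D.pr e')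
  refine isCompact_of_finite D (isClosed_le (continuous_ip D P _) continuous_const)
    ((finite_wl D (R + 2)).image fun g => g * D.co j e') fun e he => ?_
  obtain ⟨i, hi⟩ := A.cover (D.pr e)
  have h1 := (abs_le.1 (abs_dd_sub D hP hi hj)).1
  have h2 : dd D P e e' ≤ R := he
  exact ⟨i, hi, D.co i e * (D.co j e')⁻¹, show wl D _ ≤ R + 2 by linarith,
    inv_mul_cancel_right _ _⟩

end

end Crest.Agent.X261.Cov.C
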