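import Crest.Agent.X261.Cov.D
import Crest.Agent.R189.Amen

/-!
# X261, package COV (helper3), part E: arbitrary fibres, partitions of unity, push-forward to `G`

* `Len D a`, `exists_len` : proper Lipschitz functions on a countable fibre;
* `exists_cutF`, `exists_cutoffF`, `cut_pullF` : cut-off functions on every `D.cov F`;
* `rho D P T` : equivariant partitions of unity, `integral_rho`;
* `pm D μ : G →₀ ℝ` : the masses of the sheets, `pm_map`, `l1_pm_le`, `overlap`.
-/

set_option autoImplicit false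
set_option linter.unusedSectionVars false

open Set Filter Topology Complex MeasureTheory
open scoped ContDiff Matrix ComplexConjugate ENNReal Pointwise

namespace Crest.Agent.X261.Cov.E

open Crest.Agent.R275.Geo Crest.Agent.R273.UCov_914 Crest.Agent.R273.Defs_333
open Crest.Agent.R273.Kah_333 Crest.Agent.R273.Vm_333
open Crest.Agent.R273.RMan4_798 (pullKah)
open Crest.Agent.X277.AN Crest.Agent.X261.Cov.A Crest.Agent.X261.Cov.B Crest.Agent.X261.Cov.C
open Crest.Agent.X261.Cov.D
open Crest.Agent.R189 (l1 mass IsProb)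

noncomputable section

variable {n : ℕ} {X : Type} [TopologicalSpace X] {A : Atl n X}
variable {G : Type} [Group G] (D : MonD A G) {F : Type} [MulAction G F] [Finite A.ι]

/-! ### proper Lipschitz functions on the fibre -/

/-- proper, nonnegative and `1`-Lipschitz along the generators -/
structure Len (a : F → ℝ) : Prop where
  nonneg : ∀ v, 0 ≤ a v
  lip : Lip D a 1
  fin : ∀ R, {v | a v ≤ R}.Finite

theorem len_wl [ConnectedSpace (D.cov G)] : Len D (wl D) :=
  ⟨wl_nonneg D, lip_wl D, finite_wl D⟩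

/-- balls of the Schreier graph, with new points added at each step -/
def bl (S : ℕ → Set F) : ℕ → Set F
  | 0 => S 0
  | k + 1 => bl S k ∪ Set.image2 (fun g v => g • v) (gens D) (bl S k) ∪ S (k + 1)

theorem finite_bl {S : ℕ → Set F} (hS : ∀ k, (S k).Finite) (k : ℕ) : (bl D S k).Finite := by
  induction k with
  | zero => exact hS 0
  | succ k ih => exact (ih.union ((finite_gens D).image2 _ ih)).union (hS _)

theorem bl_mono (S : ℕ → Set F) : Monotone (bl D S) :=
  monotone_nat_of_le_succ fun _ _ hv => Or.inl (Or.inl hv)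

theorem sub_bl (S : ℕ → Set F) (k : ℕ) : S k ⊆ bl D S k := by
  cases k with
  | zero => exact Subset.rfl
  | succ k => exact fun v hv => Or.inr hv

theorem smul_mem_bl {S : ℕ → Set F} {k : ℕ} {g : G} (hg : g ∈ gens D) {v : F}
    (hv : v ∈ bl D S k) : g • v ∈ bl D S (k + 1) := Or.inl (Or.inr ⟨g, hg, v, hv, rfl⟩)

theorem countable_fib [PreconnectedSpace (D.cov F)] [Nonempty X] : Countable F := by
  rcases isEmpty_or_nonempty F with h | ⟨⟨v0⟩⟩
  · infer_instance
  have h1 : (⋃ k, bl D (fun _ => ({v0} : Set F)) k) = univ := by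
    refine of_stable D (fun g hg v hv => ?_) ⟨v0, mem_iUnion.2 ⟨0, rfl⟩⟩
    obtain ⟨k, hk⟩ := mem_iUnion.1 hv
    exact mem_iUnion.2 ⟨k + 1, smul_mem_bl D hg hk⟩
  rw [← Set.countable_univ_iff, ← h1]
  exact Set.countable_iUnion fun k => (finite_bl D (fun _ => Set.finite_singleton _) k).countable

theorem exists_len [Countable F] : ∃ a : F → ℝ, Len D a := by
  classical
  obtain ⟨f, hf⟩ := exists_injective_nat F
  set S : ℕ → Set F := fun k => f ⁻¹' {k} with hS
  have hfin : ∀ k, (S k).Finite := fun k => (Set.finite_singleton k).preimage hf.injOn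
  have hex : ∀ v, ∃ k, v ∈ bl D S k := fun v => ⟨f v, sub_bl D S _ rfl⟩
  have h1 : ∀ g ∈ gens D, ∀ v, Nat.find (hex (g • v)) ≤ Nat.find (hex v) + 1 := fun g hg v =>
    Nat.find_min' _ (smul_mem_bl D hg (Nat.find_spec (hex v)))
  refine ⟨fun v => Nat.find (hex v), fun v => Nat.cast_nonneg _, fun v s hs => ?_, fun R => ?_⟩
  · have h2 : (Nat.find (hex (s • v)) : ℝ) ≤ Nat.find (hex v) + 1 := by exact_mod_cast h1 s hs v
    have h3 := h1 _ (inv_mem_gens D hs) (s • v)
    simp only [inv_smul_smul] at h3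
    have h4 : (Nat.find (hex v) : ℝ) ≤ Nat.find (hex (s • v)) + 1 := by exact_mod_cast h3
    rw [Real.norm_eq_abs, abs_le]
    constructor <;> linarith
  · refine (finite_bl D hfin ⌊R⌋₊).subset fun v hv => ?_
    exact bl_mono D S (Nat.le_floor hv) (Nat.find_spec (hex v))

section len

variable {D} {P : Part A} {K : Kah A} {C : ℝ} {a : F → ℝ}

theorem Len.abs_sub (h : Len D a) (hP : PosP P) {i : A.ι} {e : D.cov F}
    (he : D.pr e ∈ (A.e i).source) : |Ip D P a e - a (D.co i e)| ≤ 1 :=
  norm_ip_sub_le D hP (h.lip _) ⟨he, rfl⟩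

theorem Len.tame (h : Len D a) (hC : Bd K P C) : Tame (pullKah D F K) (Ip D P a) C C := by
  have := tame_ip D hC h.lip
  rwa [one_pow, mul_one] at this

theorem Len.isCompact [CompactSpace X] [T2Space X] (h : Len D a) (hP : PosP P) (R : ℝ) :
    IsCompact {e | Ip D P a e ≤ R} := by
  refine isCompact_of_finite D (isClosed_le (continuous_ip D P a) continuous_const)
    (h.fin (R + 1)) fun e he => ?_
  obtain ⟨i, hi⟩ := A.cover (D.pr e)
  have h1 := (abs_le.1 (h.abs_sub hP hi)).1
  have h2 : Ip D P a e ≤ R := he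
  exact ⟨i, hi, show a _ ≤ R + 1 by linarith⟩

theorem Len.tendsto [CompactSpace X] [T2Space X] (h : Len D a) (hP : PosP P) :
    Tendsto (Ip D P a) (cocompact _) atTop := by
  refine tendsto_atTop.2 fun R => ?_
  filter_upwards [(h.isCompact hP R).compl_mem_cocompact] with e he
  exact (not_le.1 (show ¬Ip D P a e ≤ R from he)).le

theorem abs_ramp {R T : ℝ} (hT : 0 < T) (s t : ℝ) :
    |max 0 (min 1 ((R - s) / T)) - max 0 (min 1 ((R - t) / T))| ≤ T⁻¹ * |s - t| := by
  refine (abs_max_sub_max_le_max _ _ _ _).trans ?_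
  rw [sub_self, abs_zero]
  refine max_le (by positivity) ((abs_min_sub_min_le_max _ _ _ _).trans ?_)
  rw [sub_self, abs_zero]
  refine max_le (by positivity) (le_of_eq ?_)
  rw [← sub_div, abs_div, abs_of_pos hT, show R - s - (R - t) = -(s - t) by ring,
    abs_neg, div_eq_inv_mul]

/-- **cut-off functions** attached to a Lipschitz function of the sheet number -/
theorem exists_cutF (h : Lip D a 1) (hP : PosP P) (hC : Bd K P C) (R : ℝ) {T : ℝ} (hT : 0 < T) :
    ∃ χ : D.cov F → ℝ, Tame (pullKah D F K) χ (C / T) (C / T ^ 2) ∧ (∀ e, 0 ≤ χ e ∧ χ e ≤ 1) ∧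
      (∀ e, Ip D P a e ≤ R → χ e = 1) ∧ ∀ e, R + T + 2 ≤ Ip D P a e → χ e = 0 := by
  have hs : ∀ {j : A.ι} {e : D.cov F}, D.pr e ∈ (A.e j).source →
      |Ip D P a e - a (D.co j e)| ≤ 1 := fun he => norm_ip_sub_le D hP (h _) ⟨he, rfl⟩
  refine ⟨Ip D P fun v => max 0 (min 1 ((R + T + 1 - a v) / T)), ?_, fun e => ⟨?_, ?_⟩,
    fun e he => ?_, fun e he => ?_⟩
  · have := tame_ip D hC (h.comp D (κ := fun s => max 0 (min 1 ((R + T + 1 - s) / T)))
      (inv_pos.2 hT).le (abs_ramp hT))
    rwa [mul_one, inv_pow, ← div_eq_mul_inv, ← div_eq_mul_inv] at this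
  · exact ip_nonneg D hP (fun v => le_max_left _ _) e
  · exact ip_le D hP fun j _ => max_le zero_le_one (min_le_left _ _)
  · refine ip_eq_of D P fun j hj => ?_
    have h1 := (abs_le.1 (hs hj)).1
    have h2 : 1 ≤ (R + T + 1 - a (D.co j e)) / T := by
      rw [le_div_iff₀ hT]; linarith
    rw [min_eq_left h2, max_eq_right zero_le_one]
  · refine ip_eq_of D P fun j hj => ?_
    have h1 := (abs_le.1 (hs hj)).2
    have h2 : (R + T + 1 - a (D.co j e)) / T ≤ 0 :=
      div_nonpos_of_nonpos_of_nonneg (by linarith) hT.le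
    exact max_eq_left ((min_le_right _ _).trans h2)

end len

/-- cut-off functions with small first and second derivatives on every countable covering -/
theorem exists_cutoffF [CompactSpace X] [T2Space X] [Countable F] (K : Kah A) (P : Part A)
    {Z : Set (D.cov F)} (hZ : IsCompact Z) {ε : ℝ} (hε : 0 < ε) :
    ∃ χ : D.cov F → ℝ, Tame (pullKah D F K) χ ε ε ∧ HasCompactSupport χ ∧
      (∀ e, 0 ≤ χ e ∧ χ e ≤ 1) ∧ ∀ e ∈ Z, ∀ᶠ e' in 𝓝 e, χ e' = 1 := by
  obtain ⟨P', hP⟩ := exists_posP P
  obtain ⟨C, hC⟩ := exists_bd K P'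
  obtain ⟨a, ha⟩ := exists_len D (F := F)
  obtain ⟨R, hR⟩ := hZ.bddAbove_image (continuous_ip D P' a).continuousOn
  have h0 := hC.1
  have hT : 0 < C / ε + 1 := by positivity
  obtain ⟨χ, h1, h2, h3, h4⟩ := exists_cutF ha.lip hP hC (R + 1) hT
  have h5 : C / (C / ε + 1) ≤ ε := by
    rw [div_le_iff₀ hT, mul_add, mul_div_cancel₀ _ hε.ne']
    linarith
  refine ⟨χ, h1.mono h5 (le_trans ?_ h5), ?_, h2, fun e he => ?_⟩
  · refine div_le_div_of_nonneg_left h0 hT ?_
    have : 0 ≤ C / ε := by positivity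
    nlinarith
  · exact HasCompactSupport.intro (ha.isCompact hP (R + 1 + (C / ε + 1) + 2))
      fun e he => h4 e (not_le.1 he).le
  · have h6 : ∀ᶠ e' in 𝓝 e, Ip D P' a e' < R + 1 :=
      (continuous_ip D P' a).continuousAt.eventually_lt continuousAt_const
        (by linarith [hR ⟨e, he, rfl⟩])
    filter_upwards [h6] with e' he'
    exact h3 e' he'.le

theorem cut_pullF [CompactSpace X] [T2Space X] [Countable F] (K : Kah A) (P : Part A) :
    T223.Hm.Cut (pullKah D F K) := by
  intro Z hZ ε hε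
  obtain ⟨χ, h1, h2, h3, h4⟩ := exists_cutoffF D K P hZ hε
  refine ⟨χ, h1.sm, h2, fun e he => (h4 e he).self_of_nhds, h3, fun p e he v => ?_⟩
  rw [hq_eq_qf]
  simp only [dl_eq_gf]
  exact h1.gr p e he v

/-! ### equivariant partitions of unity -/

section rho

variable (P : Part A)

/-- smooth substitute of the indicator function of `FD D T` -/
def rho (T : Set F) : D.cov F → ℝ := Ip D P (T.indicator 1)

theorem sm_rho (T : Set F) : (D.atl F).Sm (rho D P T) := sm_ip D P _

theorem continuous_rho (T : Set F) : Continuous (rho D P T) := continuous_ip D P _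

theorem hasCompactSupport_rho [T2Space X] {T : Set F} (hT : T.Finite) :
    HasCompactSupport (rho D P T) :=
  hasCompactSupport_ip D P (hT.subset support_indicator_subset)

theorem exists_of_rho_ne {T : Set F} {e : D.cov F} (h : rho D P T e ≠ 0) :
    ∃ j, D.pr e ∈ (A.e j).source ∧ D.co j e ∈ T := by
  obtain ⟨j, h1, h2⟩ := exists_of_ip_ne D P h
  exact ⟨j, mem_of_psi P h1, support_indicator_subset h2⟩

theorem rho_univ (e : D.cov F) : rho D P univ e = 1 := by
  rw [rho, indicator_univ]
  exact ip_const D P 1 e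

theorem rho_deck (T : Set G) (g : G) (e : D.cov G) :
    rho D P T (g • e) = rho D P ((· * g⁻¹) ⁻¹' T) e := ip_deck D P _ g e

theorem hasSum_rho {H : Subgroup G} {T : Set G} (hT : Subgroup.IsComplement T (H : Set G))
    (e : D.cov G) : HasSum (fun h : H => rho D P T ((h : G) • e)) 1 := by
  have h1 : ∀ v : G, HasSum (fun h : H => T.indicator (1 : G → ℝ) (v * (h : G)⁻¹)) 1 := by
    intro v
    obtain ⟨h0, hh, hu⟩ := Subgroup.isComplement_iff_existsUnique_mul_inv_mem.1 hT v
    have h2 := hasSum_single (f := fun h : H => T.indicator (1 : G → ℝ) (v * (h : G)⁻¹)) h0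
      fun h hne => indicator_of_notMem (fun hm => hne (hu h hm)) _
    rwa [indicator_of_mem hh] at h2
  have h3 := hasSum_ip D P h1 e
  rw [ip_const] at h3
  simpa only [rho, ip_deck] using h3

theorem finite_rho {H : Subgroup G} {T : Set G} (hT : Subgroup.IsComplement T (H : Set G))
    {K : Set (D.cov G)} (hK : IsCompact K) :
    {h : H | ∃ e ∈ K, rho D P T ((h : G) • e) ≠ 0}.Finite := by
  choose f hf hu using Subgroup.isComplement_iff_existsUnique_mul_inv_mem.1 hT
  refine ((finite_co D hK).image f).subset ?_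
  rintro h ⟨e, he, hne⟩
  obtain ⟨j, hj, hT⟩ := exists_of_rho_ne D P hne
  rw [D.co_deck] at hT
  exact ⟨_, ⟨e, he, j, hj, rfl⟩, (hu _ h hT).symm⟩

theorem hasSum_rho_one (v : G) (e : D.cov G) : HasSum (fun g : G => rho D P {v} (g • e)) 1 := by
  have h1 : ∀ w : G, HasSum (fun g : G => ({v} : Set G).indicator (1 : G → ℝ) (w * g⁻¹)) 1 := by
    intro w
    have h2 := hasSum_single (f := fun g : G => ({v} : Set G).indicator (1 : G → ℝ) (w * g⁻¹))
      (v⁻¹ * w) fun g hne => indicator_of_notMem (fun hm => hne (by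
        rw [← mem_singleton_iff.1 hm]; group)) _
    rwa [indicator_of_mem (by simp)] at h2
  have h3 := hasSum_ip D P h1 e
  rw [ip_const] at h3
  simpa only [rho, ip_deck] using h3

theorem finite_rho_one (v : G) {K : Set (D.cov G)} (hK : IsCompact K) :
    {g : G | ∃ e ∈ K, rho D P {v} (g • e) ≠ 0}.Finite := by
  refine ((finite_co D hK).image fun w => v⁻¹ * w).subset ?_
  rintro g ⟨e, he, hne⟩
  obtain ⟨j, hj, hT⟩ := exists_of_rho_ne D P hne
  rw [D.co_deck, mem_singleton_iff] at hT
  exact ⟨_, ⟨e, he, j, hj, rfl⟩, by simp only [← hT]; group⟩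

/-- sum over a fibre -/
theorem hasSum_fib {W : Type*} [NormedAddCommGroup W] [NormedSpace ℝ W] {a : F → W} {s : W}
    (h : HasSum a s) {i : A.ι} {x : X} (hx : x ∈ (A.e i).source) :
    HasSum (fun v => Ip D P a (D.pt i v x)) s := by
  have := Fintype.ofFinite A.ι
  have h1 : ∀ v, Ip D P a (D.pt i v x) = ∑ j, P.ψ j x • a (cst D i j • v) := fun v => by
    rw [ip_eq_loc D P a (p := (i, v)) (D.pt_mem_sheet v hx), loc_eq_sum]
    rfl
  simp only [h1]
  have h2 : HasSum (fun v => ∑ j, P.ψ j x • a (cst D i j • v)) (∑ j, P.ψ j x • s) :=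
    hasSum_sum fun j _ => (((MulAction.toPerm (cst D i j)).hasSum_iff (f := a)).2 h).const_smul _
  rwa [← Finset.sum_smul, sum_psi, one_smul] at h2

theorem hasSum_rho_sec (v : F) (x : X) : HasSum (fun w => rho D P {v} (sec D w x)) 1 := by
  refine hasSum_fib D P ?_ (T223.Hm.ix_mem x)
  have h2 := hasSum_single (f := ({v} : Set F).indicator (1 : F → ℝ)) v
    fun w hne => indicator_of_notMem (show w ∉ ({v} : Set F) from hne) _
  rwa [indicator_of_mem (mem_singleton v)] at h2

variable {P}

theorem rho_nonneg (hP : PosP P) (T : Set F) (e : D.cov F) : 0 ≤ rho D P T e :=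
  ip_nonneg D hP (fun v => indicator_nonneg (fun _ _ => zero_le_one) v) e

theorem rho_le_one (hP : PosP P) (T : Set F) (e : D.cov F) : rho D P T e ≤ 1 :=
  ip_le D hP fun _ _ => indicator_le_self' (fun _ _ => zero_le_one) _

theorem lip_indicator (T : Set F) : Lip D (T.indicator (1 : F → ℝ)) 1 := by
  intro v s _
  by_cases h1 : s • v ∈ T <;> by_cases h2 : v ∈ T <;> simp [h1, h2]

theorem tame_rho {K : Kah A} {C : ℝ} (hC : Bd K P C) (T : Set F) :
    Tame (pullKah D F K) (rho D P T) C C := by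
  have := tame_ip D hC (lip_indicator D T)
  rwa [one_pow, mul_one] at this

end rho

/-! ### integrals against the partition of unity -/

section int

variable [MeasurableSpace X] [BorelSpace X] [MeasurableSpace (D.cov G)] [BorelSpace (D.cov G)]
variable [Countable G] {μ : Measure (D.cov G)} [SMulInvariantMeasure G (D.cov G) μ] {P : Part A}

theorem lintegral_rho (hP : PosP P) {N : Subgroup G} {T : Set G}
    (hT : Subgroup.IsComplement T (N : Set G)) {f : D.cov G → ℝ≥0∞} (hf : AEMeasurable f μ)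
    (hi : ∀ g ∈ N, ∀ e, f (g • e) = f e) :
    ∫⁻ e, ENNReal.ofReal (rho D P T e) * f e ∂μ = ∫⁻ e in FD D T, f e ∂μ := by
  have hm : ∀ g : N, AEMeasurable
      (fun e => ENNReal.ofReal (rho D P T ((g : G) • e)) * f e) (μ.restrict (FD D T)) :=
    fun g => (((continuous_rho D P T).comp (continuous_const_smul _)).measurable.ennreal_ofReal
      |>.aemeasurable).mul hf.restrict
  rw [(isFD μ hT).lintegral_eq_tsum'']
  have h1 : ∀ (g : N) e, ENNReal.ofReal (rho D P T (g • e)) * f (g • e) =
      ENNReal.ofReal (rho D P T ((g : G) • e)) * f e := fun g e => by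
    rw [show g • e = (g : G) • e from rfl, hi g g.2]
  simp only [h1]
  rw [← lintegral_tsum hm]
  refine lintegral_congr fun e => ?_
  rw [ENNReal.tsum_mul_right, ← ENNReal.ofReal_tsum_of_nonneg (fun g => rho_nonneg D hP T _)
    (hasSum_rho D P hT e).summable, (hasSum_rho D P hT e).tsum_eq, ENNReal.ofReal_one, one_mul]

variable {W : Type*} [NormedAddCommGroup W] [NormedSpace ℝ W]

theorem integrable_rho (hP : PosP P) {N : Subgroup G} {T : Set G}
    (hT : Subgroup.IsComplement T (N : Set G)) {f : D.cov G → W}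
    (hf : AEStronglyMeasurable f μ) (hi : ∀ g ∈ N, ∀ e, f (g • e) = f e) :
    Integrable (fun e => rho D P T e • f e) μ ↔ IntegrableOn f (FD D T) μ := by
  have h1 := lintegral_rho D hP hT (f := fun e => ‖f e‖ₑ) hf.enorm fun g hg e => by
    rw [hi g hg]
  have h2 : ∀ e, ‖rho D P T e • f e‖ₑ = ENNReal.ofReal (rho D P T e) * ‖f e‖ₑ := fun e => by
    rw [enorm_smul, Real.enorm_eq_ofReal (rho_nonneg D hP T e)]
  unfold IntegrableOn Integrable HasFiniteIntegral
  simp only [h2, h1]
  exact ⟨fun h => ⟨hf.restrict, h.2⟩,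
    fun h => ⟨(continuous_rho D P T).aestronglyMeasurable.smul hf, h.2⟩⟩

theorem integral_rho (hP : PosP P) {N : Subgroup G} {T : Set G}
    (hT : Subgroup.IsComplement T (N : Set G)) {f : D.cov G → W}
    (hf : AEStronglyMeasurable f μ) (hi : ∀ g ∈ N, ∀ e, f (g • e) = f e) :
    ∫ e, rho D P T e • f e ∂μ = ∫ e in FD D T, f e ∂μ := by
  by_cases hW : CompleteSpace W
  swap
  · simp [integral, hW]
  by_cases hI : IntegrableOn f (FD D T) μ
  swap
  · rw [integral_undef hI, integral_undef fun h => hI ((integrable_rho D hP hT hf hi).1 h)]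
  have hI' := (integrable_rho D hP hT hf hi).2 hI
  rw [(isFD μ hT).integral_eq_tsum'' _ hI']
  have h1 : ∀ (g : N) e, rho D P T (g • e) • f (g • e) = rho D P T ((g : G) • e) • f e :=
    fun g e => by rw [show g • e = (g : G) • e from rfl, hi g g.2]
  have h2 := (isFD μ hT).lintegral_eq_tsum'' (fun e => ‖rho D P T e • f e‖ₑ)
  simp only [h1] at h2 ⊢
  rw [← integral_tsum]
  · refine integral_congr_ae (Eventually.of_forall fun e => ?_)
    have h3 := ((hasSum_rho D P hT e).smul_const (f e)).tsum_eq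
    rw [one_smul] at h3
    exact h3
  · exact fun g => (((continuous_rho D P T).comp
      (continuous_const_smul _)).aestronglyMeasurable).smul hf.restrict
  · rw [← h2]
    exact hI'.2.ne

end int

/-! ### the masses of the sheets -/

section pm

variable [MeasurableSpace X] [BorelSpace X] [MeasurableSpace (D.cov G)] [BorelSpace (D.cov G)]

open Classical in
/-- the masses of the sheets, as a finitely supported function on the group -/
def pm (μ : Measure (D.cov G)) : G →₀ ℝ :=
  if h : (Function.support fun v : G => μ.real (FD D {v⁻¹})).Finite then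
    Finsupp.ofSupportFinite _ h else 0

/-- finite measure carried by a compact set -/
def CM (μ : Measure (D.cov G)) : Prop := IsFiniteMeasure μ ∧ ∃ K, IsCompact K ∧ μ Kᶜ = 0

variable {D} {μ ν : Measure (D.cov G)}

theorem CM.mono (h : CM D μ) (hν : ν ≤ μ) : CM D ν := by
  obtain ⟨h1, K, hK, h2⟩ := h
  exact ⟨isFiniteMeasure_of_le μ hν, K, hK, le_antisymm ((hν _).trans h2.le) (zero_le)⟩

theorem CM.map [T2Space X] (h : CM D μ) (g : G) : CM D (μ.map (g • ·)) := by
  obtain ⟨h1, K, hK, h2⟩ := h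
  have hc : Continuous fun e : D.cov G => g • e := continuous_const_smul g
  refine ⟨inferInstance, _, hK.image hc, ?_⟩
  rw [Measure.map_apply hc.measurable (hK.image hc).isClosed.measurableSet.compl]
  exact measure_mono_null (fun e he hk => he ⟨e, hk, rfl⟩) h2

theorem CM.exists_finset (h : CM D μ) : ∃ T : Finset G, μ (FD D ((T : Set G)⁻¹))ᶜ = 0 := by
  classical
  obtain ⟨-, K, hK, h2⟩ := h
  obtain ⟨T, hT⟩ := exists_FD_sup D hK
  refine ⟨T.image (·⁻¹), measure_mono_null (compl_subset_compl.2 fun e hk => ?_) h2⟩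
  have := hT hk
  rw [mem_FD] at this ⊢
  simpa using this

theorem real_eq_zero {T : Finset G} (hT : μ (FD D ((T : Set G)⁻¹))ᶜ = 0) {v : G} (hv : v ∉ T) :
    μ.real (FD D {v⁻¹}) = 0 := by
  have h1 : FD D {v⁻¹} ⊆ (FD D ((T : Set G)⁻¹))ᶜ := fun e he hk => hv (by
    rw [mem_FD] at he hk
    rw [mem_singleton_iff.1 he] at hk
    simpa using hk)
  simp [Measure.real, measure_mono_null h1 hT]

theorem pm_apply (h : CM D μ) (v : G) : pm D μ v = μ.real (FD D {v⁻¹}) := by
  obtain ⟨T, hT⟩ := h.exists_finset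
  have h1 : (Function.support fun v : G => μ.real (FD D {v⁻¹})).Finite :=
    T.finite_toSet.subset fun v hv => by_contra fun hn => hv (real_eq_zero hT hn)
  rw [pm, dif_pos h1]
  rfl

theorem pm_nonneg (h : CM D μ) (v : G) : 0 ≤ pm D μ v := by
  rw [pm_apply h]
  exact measureReal_nonneg

theorem pm_mono (h : CM D μ) (hν : ν ≤ μ) (v : G) : pm D ν v ≤ pm D μ v := by
  have := h.1
  rw [pm_apply h, pm_apply (h.mono hν)]
  exact ENNReal.toReal_mono (measure_ne_top _ _) (hν _)

theorem mass_pm (h : CM D μ) : mass (pm D μ) = μ.real univ := by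
  have := h.1
  obtain ⟨T, hT⟩ := h.exists_finset
  rw [R189.mass_eq (F := T) fun v hv => by_contra fun hn =>
    Finsupp.mem_support_iff.1 hv (by rw [pm_apply h, real_eq_zero hT hn])]
  simp only [pm_apply h]
  rw [← measureReal_biUnion_finset _ fun v _ => measurableSet_FD D _]
  · refine measureReal_congr (ae_eq_univ.2
      (measure_mono_null (compl_subset_compl.2 fun e hk => ?_) hT))
    rw [mem_FD] at hk
    exact mem_iUnion₂.2 ⟨(cd D e)⁻¹, hk, by simp [mem_FD]⟩
  · intro v _ w _ hne
    refine Set.disjoint_left.2 fun e h1 h2 => hne ?_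
    rw [mem_FD, mem_singleton_iff] at h1 h2
    exact inv_injective (h1.symm.trans h2)

theorem pm_map [T2Space X] (h : CM D μ) (g : G) :
    pm D (μ.map (g • ·)) = (pm D μ).mapDomain (g * ·) := by
  ext v
  obtain ⟨w, rfl⟩ : ∃ w, v = g * w := ⟨g⁻¹ * v, by simp⟩
  rw [Finsupp.mapDomain_apply (mul_right_injective g), pm_apply h, pm_apply (h.map g),
    map_measureReal_apply (continuous_const_smul g).measurable (measurableSet_FD D _)]
  congr 1
  ext e
  simp only [mem_preimage, mem_FD, cd_deck, mem_singleton_iff, mul_inv_rev, mul_left_inj]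

theorem isProb_pm (h : CM D μ) (h0 : μ ≠ 0) : IsProb ((μ.real univ)⁻¹ • pm D μ) := by
  have := h.1
  refine ⟨fun v => mul_nonneg (inv_nonneg.2 measureReal_nonneg) (pm_nonneg h v), ?_⟩
  rw [R189.mass_lc, map_smul, ← R189.mass_lc, mass_pm h, smul_eq_mul, inv_mul_cancel₀]
  exact have : NeZero μ := ⟨h0⟩; measureReal_univ_ne_zero

/-- `U ≤ μ'`, `U ≤ W`, `μ ≤ W` : the overlap of `μ` and `μ'` is at least `|μ| + |U| - |W|` -/
theorem l1_pm_le {μ' U W : Measure (D.cov G)} (h' : CM D μ') (hW : CM D W) (h1 : U ≤ μ')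
    (h2 : U ≤ W) (h3 : μ ≤ W) : l1 (pm D μ - pm D μ') ≤
      μ.real univ + μ'.real univ - 2 * (μ.real univ + U.real univ - W.real univ) := by
  classical
  set T := (pm D μ').support ∪ (pm D W).support with hT
  have hs : ∀ {ν : Measure (D.cov G)}, ν ≤ W → (pm D ν).support ⊆ T := by
    intro ν hν v hv
    refine Finset.mem_union_right _ (Finsupp.mem_support_iff.2 fun h0 => ?_)
    exact Finsupp.mem_support_iff.1 hv
      (le_antisymm (h0 ▸ pm_mono hW hν v) (pm_nonneg (hW.mono hν) v))
  have hs' : (pm D μ').support ⊆ T := Finset.subset_union_left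
  rw [← mass_pm h', ← mass_pm hW, ← mass_pm (hW.mono h2), ← mass_pm (hW.mono h3),
    R189.mass_eq hs', R189.mass_eq (hs le_rfl), R189.mass_eq (hs h2), R189.mass_eq (hs h3),
    R189.l1_eq (F := T) (Finsupp.support_sub.trans (Finset.union_subset (hs h3) hs')),
    ← Finset.sum_add_distrib, ← Finset.sum_add_distrib, ← Finset.sum_sub_distrib, Finset.mul_sum,
    ← Finset.sum_sub_distrib]
  refine Finset.sum_le_sum fun v _ => ?_
  have a1 := pm_mono h' h1 v
  have a2 := pm_mono hW h2 v
  have a3 := pm_mono hW h3 v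
  rw [Finsupp.sub_apply, abs_le]
  constructor <;> linarith

/-- a common minorant -/
theorem l1_pm_le' {μ' U : Measure (D.cov G)} (h : CM D μ) (h' : CM D μ') (h1 : U ≤ μ)
    (h2 : U ≤ μ') : l1 (pm D μ - pm D μ') ≤ μ.real univ + μ'.real univ - 2 * U.real univ := by
  have := l1_pm_le h' h h2 h1 le_rfl
  linarith

/-- **weak overlap** of a measure and its translate -/
theorem overlap [T2Space X] (h : CM D μ) (g : G) {U W : Measure (D.cov G)} (hW : CM D W)
    (h1 : U ≤ μ.map (g • ·)) (h2 : U ≤ W) (h3 : μ ≤ W) (h0 : μ ≠ 0) :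
    l1 (((μ.real univ)⁻¹ • pm D μ).mapDomain (g * ·) - (μ.real univ)⁻¹ • pm D μ) ≤
      2 - 2 * (μ.real univ + U.real univ - W.real univ) / μ.real univ := by
  have := h.1
  have hp : 0 < μ.real univ :=
    have : NeZero μ := ⟨h0⟩; measureReal_univ_pos
  have h4 := l1_pm_le (h.map g) hW h1 h2 h3
  rw [map_measureReal_apply (continuous_const_smul g).measurable MeasurableSet.univ,
    preimage_univ, R189.l1_sub_comm] at h4
  rw [Finsupp.mapDomain_smul, ← pm_map h, ← smul_sub, R189.l1_smul, abs_of_pos (inv_pos.2 hp)]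
  refine (mul_le_mul_of_nonneg_left h4 (inv_pos.2 hp).le).trans (le_of_eq ?_)
  field_simp
  ring

end pm

end

end Crest.Agent.X261.Cov.E
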