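import Crest.Agent.X261.Cov.K
import Crest.Agent.R272.Pr1_414
import Crest.Agent.X261.Ans.Defs

/-!
# X261, package COV (helper3), part P: products, the quotient `N = (M × M) / G`

* `prodD D D' : MonD (A.prod B) (G × G')`, `jn D D' f : D.cov F × D'.cov F' → (prodD D D').cov E`;
* `prodKP H H'`, `pos_prod`, `qp_jn`, `qp_of_jn`, slices `qp_left`, `qp_right`;
* `Bi G` (the group with the action `(g, h) • k = g k h⁻¹`), `Nq D`, `q D : M × M → Nq D`,
  `q_eq_iff`, the diagonal `Dg D`, properness, the involution `sw D`.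
-/

set_option autoImplicit false
set_option linter.unusedSectionVars false

open Set Filter Topology Complex
open scoped ContDiff Matrix ComplexConjugate ComplexOrder Pointwise

namespace Crest.Agent.X261.Cov.P

open Crest.Agent.R275.Geo Crest.Agent.R275.GC293 Crest.Agent.R275.Prod363
open Crest.Agent.R273.UCov_914 Crest.Agent.R273.Map_835
open Crest.Agent.R273.PB_835 (Ref LBih)
open Crest.Agent.R273.YauCh_635 (two_le_inf)
open Crest.Agent.R281.Rich_710 (PshL lev_eq_lvE)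
open Crest.Agent.R281.Kp_487 (KP pot cur kah wt_contDiffAt)
open Crest.Agent.R257.HoB_843 (lvE)
open Crest.Agent.R257.Glue2_101 (lvE_add lvE_const_mul)
open Crest.Agent.X261.BT (QP PP Slow Iso sc ad zr chU ovI)
open Crest.Agent.X261.Ans (HA)
open Crest.Agent.X261.Cov.A Crest.Agent.X261.Cov.B Crest.Agent.X261.Cov.C Crest.Agent.X261.Cov.E
open Crest.Agent.X261.Cov.K

noncomputable section

variable {n m : ℕ} {X Y : Type} [TopologicalSpace X] [TopologicalSpace Y]
variable {A : Atl n X} {B : Atl m Y}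

theorem lh_prodMap {α β γ δ : Type*} [TopologicalSpace α] [TopologicalSpace β]
    [TopologicalSpace γ] [TopologicalSpace δ] {f : α → β} {g : γ → δ} (hf : IsLocalHomeomorph f)
    (hg : IsLocalHomeomorph g) : IsLocalHomeomorph (Prod.map f g) := by
  intro x
  obtain ⟨e, h1, rfl⟩ := hf x.1
  obtain ⟨e', h2, rfl⟩ := hg x.2
  exact ⟨e.prod e', ⟨h1, h2⟩, rfl⟩

/-! ### the two languages for holomorphic maps -/

theorem hol_of {p : X → Y} (hp : HolMap A B p) (x : X) : (HA.of A).Hol (HA.of B) p x := by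
  refine ⟨hp.cont.continuousAt, fun i j hi hj => ?_⟩
  exact hp.analyticAt (mem_dm hi hj)

theorem hol_toProd (x : X × Y) : ((HA.of A).prod (HA.of B)).Hol (HA.of (A.prod B)) id x := by
  refine ⟨continuousAt_id, fun i j hi hj => ?_⟩
  have h1 := (holMap_id A).analyticAt (mem_dm (B := A) (p := id) (j := j.1) hi.1 hj.1)
  have h2 := (holMap_id B).analyticAt (mem_dm (B := B) (p := id) (j := j.2) hi.2 hj.2)
  exact ((appL n m).analyticAt _).comp
    ((h1.comp_of_eq analyticAt_fst rfl).prod (h2.comp_of_eq analyticAt_snd rfl))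

theorem hol_ofProd (x : X × Y) : (HA.of (A.prod B)).Hol ((HA.of A).prod (HA.of B)) id x := by
  refine ⟨continuousAt_id, fun i j hi hj => ?_⟩
  exact ((R272.Pr_414.fst A B).analyticAt (mem_dm (j := j.1) hi hj.1)).prod
    ((R272.Pr_414.snd A B).analyticAt (mem_dm (j := j.2) hi hj.2))

/-! ### product of potentials -/

/-- `ω ⊕ ω'` -/
def prodKP (H : KP A) (H' : KP B) : KP (A.prod B) :=
  ad (pbKP (R272.Pr_414.fst A B) (R272.Pr_414.rfst A B) H)
    (pbKP (R272.Pr_414.snd A B) (R272.Pr_414.rsnd A B) H')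

section kp

variable {H : KP A} {H' : KP B}

@[simp] theorem u_prod (p : A.ι × B.ι) (x : X × Y) :
    (prodKP H H').u p x = H.u p.1 x.1 + H'.u p.2 x.2 := rfl

theorem wt_prod (p : A.ι × B.ι) (z : Cn (n + m)) :
    (prodKP H H').wt p z = H.wt p.1 (fstL n m z) + H'.wt p.2 (sndL n m z) := rfl

theorem sc_prod (c : ℝ) (p : A.ι × B.ι) (z : Cn (n + m)) :
    (sc c (prodKP H H')).wt p z = (prodKP (sc c H) (sc c H')).wt p z := mul_add _ _ _

theorem lvE_clm {E E' : Type*} [NormedAddCommGroup E] [NormedSpace ℂ E] [NormedAddCommGroup E']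
    [NormedSpace ℂ E'] (T : E →L[ℂ] E') {u : E' → ℝ} {z : E} (hu : ContDiffAt ℝ ∞ u (T z))
    (v : E) : lvE (fun w => u (T w)) z v = lvE u (T z) (T v) := by
  have := R257.HoB_843.lvE_comp (T := T) T.contDiff.contDiffAt (hu.of_le two_le_inf) v
  rwa [T.fderiv] at this

theorem lvE_prod {p : A.ι × B.ι} {z : Cn (n + m)} (hz : z ∈ ((A.prod B).e p).target)
    (v : Cn (n + m)) : lvE ((prodKP H H').wt p) z v =
      lvE (H.wt p.1) (fstL n m z) (fstL n m v) + lvE (H'.wt p.2) (sndL n m z) (sndL n m v) := by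
  have c1 := wt_contDiffAt H p.1 hz.1
  have c2 := wt_contDiffAt H' p.2 hz.2
  rw [← lvE_clm (fstL n m) c1, ← lvE_clm (sndL n m) c2]
  exact lvE_add (c1.comp z ((fstL n m).restrictScalars ℝ).contDiff.contDiffAt)
    (c2.comp z ((sndL n m).restrictScalars ℝ).contDiff.contDiffAt) v

theorem semi_prod (hH : H.Semipos) (hH' : H'.Semipos) : (prodKP H H').Semipos :=
  BT.semi_ad (semi_pb _ _ hH) (semi_pb _ _ hH')

theorem pos_prod (hH : H.Pos) (hH' : H'.Pos) : (prodKP H H').Pos := by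
  intro p z hz v hv
  have h1 := BT.semi_lvE (BT.pos_semi hH) p.1 hz.1 (fstL n m v)
  have h2 := BT.semi_lvE (BT.pos_semi hH') p.2 hz.2 (sndL n m v)
  rw [lev_eq_lvE, lvE_prod hz]
  by_cases h : fstL n m v = 0
  · have h3 : sndL n m v ≠ 0 := fun h' => hv (ext_prod (by simp [h]) (by simp [h']))
    have h4 := hH' p.2 (sndL n m z) hz.2 _ h3
    rw [lev_eq_lvE] at h4
    exact mul_pos (by norm_num) (add_pos_of_nonneg_of_pos h1 (by linarith))
  · have h4 := hH p.1 (fstL n m z) hz.1 _ h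
    rw [lev_eq_lvE] at h4
    exact mul_pos (by norm_num) (add_pos_of_pos_of_nonneg (by linarith) h2)

theorem qp_add {U : Set X} {V : Set Y} {a : X → ℝ} {b : Y → ℝ} (ha : QP H U a) (hb : QP H' V b) :
    QP (prodKP H H') (U ×ˢ V) fun x => a x.1 + b x.2 :=
  have ho := ha.op.prod hb.op
  ((qp_pb (R272.Pr_414.fst A B) (R272.Pr_414.rfst A B) ha).mono ho fun _ h => h.1).add
    ((qp_pb (R272.Pr_414.snd A B) (R272.Pr_414.rsnd A B) hb).mono ho fun _ h => h.2)

theorem qp_left {U : Set (X × Y)} {φ : X × Y → ℝ} (h : QP (prodKP H H') U φ) (y : Y) :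
    QP H {x | (x, y) ∈ U} fun x => φ (x, y) := by
  obtain ⟨j, hj⟩ := B.cover y
  have h1 := qp_pb (R272.Pr_414.left A B y) ⟨fun i => (i, j), fun _ _ hx => ⟨hx, hj⟩⟩ h
  refine (h1.sub_const (H'.u j y)).of_pot (h1.cont) fun i z _ => ?_
  change H.wt i z + φ ((A.e i).symm z, y) = H.wt i z + H'.u j y + (_ - _)
  ring

theorem qp_right {U : Set (X × Y)} {φ : X × Y → ℝ} (h : QP (prodKP H H') U φ) (x : X) :
    QP H' {y | (x, y) ∈ U} fun y => φ (x, y) := by
  obtain ⟨i, hi⟩ := A.cover x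
  have h1 := qp_pb (R272.Pr_414.right A B x) ⟨fun j => (i, j), fun _ _ hy => ⟨hi, hy⟩⟩ h
  refine (h1.sub_const (H.u i x)).of_pot (h1.cont) fun j z _ => ?_
  change H'.wt j z + φ (x, (B.e j).symm z) = H.u i x + H'.wt j z + (_ - _)
  ring

theorem qp_swap {U : Set (X × Y)} {φ : X × Y → ℝ} (h : QP (prodKP H H') U φ) :
    QP (prodKP H' H) (Prod.swap ⁻¹' U) fun x => φ x.swap :=
  (qp_pb (R272.Pr_414.swap B A) ⟨fun p => (p.2, p.1), fun _ _ hx => ⟨hx.2, hx.1⟩⟩ h).of_wt
    fun _ _ => add_comm _ _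

end kp

/-! ### product of cocycles -/

variable {G G' : Type} [Group G] [Group G'] (D : MonD A G) (D' : MonD B G')

/-- the product cocycle -/
def prodD : MonD (A.prod B) (G × G') where
  c p r x := (D.c p.1 r.1 x.1, D'.c p.2 r.2 x.2)
  c_self p x hx := Prod.ext (D.c_self _ _ hx.1) (D'.c_self _ _ hx.2)
  c_mul _ _ _ x hx := Prod.ext (D.c_mul _ _ _ x.1 ⟨⟨hx.1.1.1, hx.1.2.1⟩, hx.2.1⟩)
    (D'.c_mul _ _ _ x.2 ⟨⟨hx.1.1.2, hx.1.2.2⟩, hx.2.2⟩)
  c_loc _ _ x hx y hy := Prod.ext (D.c_loc _ _ x.1 ⟨hx.1.1, hx.2.1⟩ y.1 ⟨hy.1.1, hy.2.1⟩)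
    (D'.c_loc _ _ x.2 ⟨hx.1.2, hx.2.2⟩ y.2 ⟨hy.1.2, hy.2.2⟩)

theorem gens_prod {g : G × G'} (hg : g ∈ gens (prodD D D')) : g.1 ∈ gens D ∧ g.2 ∈ gens D' := by
  obtain ⟨p, r, x, hx, rfl⟩ := hg
  exact ⟨c_mem_gens D hx.1.1 hx.2.1, c_mem_gens D' hx.1.2 hx.2.2⟩

/-! The product atlas is reducible, so that the instances on `D.cov F` are repeated. -/

instance instT2 [T2Space X] [T2Space Y] {E : Type} [MulAction (G × G') E] :
    T2Space ((prodD D D').cov E) := MonD.instT2SpaceCov _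

instance instAct : MulAction (G × G') ((prodD D D').cov (G × G')) := MonD.instMulActionCov _

instance instCont : ContinuousConstSMul (G × G') ((prodD D D').cov (G × G')) :=
  MonD.instContinuousConstSMulCov _

instance instCountable [Countable A.ι] [Countable B.ι] {E : Type} [MulAction (G × G') E]
    [Countable E] : Countable ((prodD D D').atl E).ι := MonD.instCountableιCovAtl _ _

section jn

variable {F F' E : Type} [MulAction G F] [MulAction G' F'] [MulAction (G × G') E]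

/-- bi-equivariant map of fibres -/
def Bq (G G' : Type) [Group G] [Group G'] {F F' E : Type} [MulAction G F] [MulAction G' F']
    [MulAction (G × G') E] (f : F → F' → E) : Prop :=
  ∀ (g : G) (h : G') v w, f (g • v) (h • w) = (g, h) • f v w

/-- the map from the product of two coverings to a covering of the product -/
def jn (f : F → F' → E) (x : D.cov F × D'.cov F') : (prodD D D').cov E :=
  (prodD D D').pt ((A.cover (D.pr x.1)).choose, (B.cover (D'.pr x.2)).choose)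
    (f (D.co (A.cover (D.pr x.1)).choose x.1) (D'.co (B.cover (D'.pr x.2)).choose x.2))
    (D.pr x.1, D'.pr x.2)

@[simp] theorem pr_jn (f : F → F' → E) (x : D.cov F × D'.cov F') :
    (prodD D D').pr (jn D D' f x) = (D.pr x.1, D'.pr x.2) := rfl

variable {D D'} {f : F → F' → E}

theorem co_jn (hf : Bq G G' f) {p : A.ι × B.ι} {x : D.cov F × D'.cov F'}
    (hi : D.pr x.1 ∈ (A.e p.1).source) (hj : D'.pr x.2 ∈ (B.e p.2).source) :
    (prodD D D').co p (jn D D' f x) = f (D.co p.1 x.1) (D'.co p.2 x.2) := by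
  have h1 := (A.cover (D.pr x.1)).choose_spec
  have h2 := (B.cover (D'.pr x.2)).choose_spec
  rw [jn, (prodD D D').co_pt' (j := p) _ ⟨h1, h2⟩ ⟨hi, hj⟩, D.co_eq h1 hi, D'.co_eq h2 hj, hf]
  rfl

theorem jn_eq (hf : Bq G G' f) {p : A.ι × B.ι} {x : D.cov F × D'.cov F'}
    (hi : D.pr x.1 ∈ (A.e p.1).source) (hj : D'.pr x.2 ∈ (B.e p.2).source) :
    jn D D' f x = (prodD D D').pt p (f (D.co p.1 x.1) (D'.co p.2 x.2)) (D.pr x.1, D'.pr x.2) := by
  rw [← co_jn hf hi hj]
  exact ((prodD D D').pt_co (i := p) (e := jn D D' f x) ⟨hi, hj⟩).symm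

theorem jn_pt (hf : Bq G G' f) {i : A.ι} {j : B.ι} (v : F) (w : F') {x : X} {y : Y}
    (hi : x ∈ (A.e i).source) (hj : y ∈ (B.e j).source) :
    jn D D' f (D.pt i v x, D'.pt j w y) = (prodD D D').pt (i, j) (f v w) (x, y) := by
  rw [jn_eq hf (p := (i, j)) (x := (D.pt i v x, D'.pt j w y)) hi hj, D.co_pt v hi, D'.co_pt w hj]
  rfl

theorem jn_mem (hf : Bq G G' f) {i : A.ι} {j : B.ι} {v : F} {w : F'} {x : D.cov F × D'.cov F'}
    (h1 : x.1 ∈ D.sheet i v) (h2 : x.2 ∈ D'.sheet j w) :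
    jn D D' f x ∈ (prodD D D').sheet (i, j) (f v w) :=
  ⟨⟨h1.1, h2.1⟩, by rw [co_jn hf (p := (i, j)) h1.1 h2.1, h1.2, h2.2]⟩

theorem continuous_jn (hf : Bq G G' f) : Continuous (jn D D' f) := by
  rw [continuous_iff_continuousAt]
  intro x
  obtain ⟨i, hi⟩ := A.cover (D.pr x.1)
  obtain ⟨j, hj⟩ := B.cover (D'.pr x.2)
  have h1 : ContinuousAt ((prodD D D').pt (i, j) (f (D.co i x.1) (D'.co j x.2)))
      (D.pr x.1, D'.pr x.2) := ((prodD D D').continuousOn_pt (i, j) _).continuousAt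
        (((A.prod B).e (i, j)).open_source.mem_nhds ⟨hi, hj⟩)
  have h2 := ContinuousAt.comp (f := fun y : D.cov F × D'.cov F' => (D.pr y.1, D'.pr y.2)) h1
    ((D.continuous_pr.comp continuous_fst).prodMk
      (D'.continuous_pr.comp continuous_snd)).continuousAt
  refine h2.congr ?_
  filter_upwards [continuous_fst.continuousAt.eventually (D.co_eventually hi),
    continuous_snd.continuousAt.eventually (D'.co_eventually hj)] with y h3 h4
  rw [jn_eq hf (p := (i, j)) h3.1 h4.1, h3.2, h4.2]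
  rfl

theorem isLocalHomeomorph_jn (hf : Bq G G' f) : IsLocalHomeomorph (jn D D' f) :=
  IsLocalHomeomorph.of_comp (g := (prodD D D').pr) (f := jn D D' f)
    (lh_prodMap D.isLocalHomeomorph D'.isLocalHomeomorph) (prodD D D').isLocalHomeomorph
    (continuous_jn hf)

theorem isOpenMap_jn (hf : Bq G G' f) : IsOpenMap (jn D D' f) :=
  (isLocalHomeomorph_jn hf).isOpenMap

theorem surjective_jn (hf : Bq G G' f) (hs : ∀ k, ∃ v w, f v w = k) :
    Function.Surjective (jn D D' f) := by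
  intro y
  obtain ⟨p, hp⟩ := (A.prod B).cover ((prodD D D').pr y)
  obtain ⟨v, w, h⟩ := hs ((prodD D D').co p y)
  refine ⟨(D.pt p.1 v ((prodD D D').pr y).1, D'.pt p.2 w ((prodD D D').pr y).2), ?_⟩
  rw [jn_pt hf v w hp.1 hp.2, h]
  exact (prodD D D').pt_co hp

theorem jn_eq_iff (hf : Bq G G' f) {p : A.ι × B.ι} {x y : D.cov F × D'.cov F'}
    (hi : D.pr x.1 ∈ (A.e p.1).source) (hj : D'.pr x.2 ∈ (B.e p.2).source) :
    jn D D' f x = jn D D' f y ↔ D.pr x.1 = D.pr y.1 ∧ D'.pr x.2 = D'.pr y.2 ∧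
      f (D.co p.1 x.1) (D'.co p.2 x.2) = f (D.co p.1 y.1) (D'.co p.2 y.2) := by
  constructor
  · intro h
    have h1 := congrArg (prodD D D').pr h
    have h2 : D.pr x.1 = D.pr y.1 := congrArg Prod.fst h1
    have h3 : D'.pr x.2 = D'.pr y.2 := congrArg Prod.snd h1
    exact ⟨h2, h3, by rw [← co_jn hf hi hj, h, co_jn hf (h2 ▸ hi) (h3 ▸ hj)]⟩
  · rintro ⟨h2, h3, h4⟩
    rw [jn_eq hf hi hj, jn_eq hf (h2 ▸ hi) (h3 ▸ hj), h2, h3, h4]

/-- the map is the identity in the charts -/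
theorem read_jn (hf : Bq G G' f) {p : A.ι × F} {r : B.ι × F'} {z : Cn (n + m)}
    (hz : z ∈ ((A.prod B).e (p.1, r.1)).target) :
    jn D D' f ((((D.atl F).prod (D'.atl F')).e (p, r)).symm z) =
      (((prodD D D').atl E).e ((p.1, r.1), f p.2 r.2)).symm z :=
  jn_pt hf p.2 r.2 ((A.e p.1).map_target hz.1) ((B.e r.1).map_target hz.2)

theorem read_jn' (hf : Bq G G' f) {p : A.ι × F} {r : B.ι × F'} {z : Cn n} {w : Cn m}
    (hz : z ∈ (A.e p.1).target) (hw : w ∈ (B.e r.1).target) :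
    jn D D' f (((D.atl F).e p).symm z, ((D'.atl F').e r).symm w) =
      (((prodD D D').atl E).e ((p.1, r.1), f p.2 r.2)).symm (app z w) := by
  rw [← read_jn hf (by rw [mem_prod_target, fstL_app, sndL_app]; exact ⟨hz, hw⟩),
    prod_e_symm_app]

theorem holMap_jn (hf : Bq G G' f) :
    HolMap ((D.atl F).prod (D'.atl F')) ((prodD D D').atl E) (jn D D' f) :=
  MonD.holMap_over (A := A.prod B) (B := (D.atl F).prod (D'.atl F')) (B' := (prodD D D').atl E)
    (π := Prod.map D.pr D'.pr) (π' := (prodD D D').pr) (r := fun p => (p.1.1, p.2.1))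
    (r' := fun p : (A.ι × B.ι) × E => p.1)
    (fun _ _ hz => ⟨hz, rfl⟩) (fun _ _ he => ⟨he.1, rfl⟩) (continuous_jn hf) fun _ => rfl

/-- the refinement attached to `jn` -/
def rjn (hf : Bq G G' f) : Ref ((D.atl F).prod (D'.atl F')) ((prodD D D').atl E) (jn D D' f) :=
  ⟨fun p => ((p.1.1, p.2.1), f p.1.2 p.2.2), fun _ _ hx => jn_mem hf hx.1 hx.2⟩

theorem hol_jn (hf : Bq G G' f) (x : D.cov F × D'.cov F') :
    ((HA.of (D.atl F)).prod (HA.of (D'.atl F'))).Hol (HA.of ((prodD D D').atl E))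
      (jn D D' f) x := by
  refine ⟨(continuous_jn hf).continuousAt, fun i j hi hj => ?_⟩
  exact (hol_toProd (A := A) (B := B) (D.pr x.1, D'.pr x.2)).2 (i.1.1, i.2.1) j.1
    ⟨hi.1.1, hi.2.1⟩ hj.1

theorem sm_jn {W : Type*} [NormedAddCommGroup W] [NormedSpace ℝ W] (hf : Bq G G' f)
    {u : (prodD D D').cov E → W} (hu : ((prodD D D').atl E).Sm u) :
    ((D.atl F).prod (D'.atl F')).Sm fun x => u (jn D D' f x) := fun p =>
  (hu ((p.1.1, p.2.1), f p.1.2 p.2.2)).congr fun _ hz => congrArg u (read_jn hf hz)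

theorem ip_jn [Finite A.ι] [Finite B.ι] {W : Type*} [NormedAddCommGroup W] [NormedSpace ℝ W]
    (hf : Bq G G' f) (P : Part A) (P' : Part B) (a : E → W) (x : D.cov F × D'.cov F') :
    Ip (prodD D D') (R272.Pr_414.part P P') a (jn D D' f x) =
      Ip D P (fun v => Ip D' P' (fun w => a (f v w)) x.2) x.1 := by
  have := Fintype.ofFinite A.ι
  have := Fintype.ofFinite B.ι
  simp only [ip_eq_sum, Fintype.sum_prod_type, Finset.smul_sum, smul_smul]
  refine Finset.sum_congr rfl fun i _ => Finset.sum_congr rfl fun j _ => ?_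
  change (P.ψ i (D.pr x.1) * P'.ψ j (D'.pr x.2)) • _ = _
  by_cases h : P.ψ i (D.pr x.1) * P'.ψ j (D'.pr x.2) = 0
  · rw [h, zero_smul, zero_smul]
  · rw [co_jn hf (p := (i, j)) (mem_of_psi P (left_ne_zero_of_mul h))
      (mem_of_psi P' (right_ne_zero_of_mul h))]

variable {H : KP A} {H' : KP B}

theorem qp_jn (hf : Bq G G' f) {U : Set ((prodD D D').cov E)} {φ : (prodD D D').cov E → ℝ}
    (h : QP (pullKP (prodD D D') E (prodKP H H')) U φ) :
    QP (prodKP (pullKP D F H) (pullKP D' F' H')) (jn D D' f ⁻¹' U) fun x => φ (jn D D' f x) :=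
  (qp_pb (holMap_jn hf) (rjn hf) h).of_wt fun _ _ => rfl

theorem qp_of_jn (hf : Bq G G' f) (hs : ∀ k, ∃ v w, f v w = k) {U : Set ((prodD D D').cov E)}
    {φ : (prodD D D').cov E → ℝ} (h : QP (prodKP (pullKP D F H) (pullKP D' F' H'))
      (jn D D' f ⁻¹' U) fun x => φ (jn D D' f x)) :
    QP (pullKP (prodD D D') E (prodKP H H')) U φ := by
  have hq := (isOpenMap_jn (D := D) (D' := D') hf).isQuotientMap (continuous_jn hf)
    (surjective_jn hf hs)
  have ho := hq.isOpen_preimage.1 h.op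
  refine ⟨ho, fun e he => ?_, fun p => ?_⟩
  · obtain ⟨x, rfl⟩ := surjective_jn hf hs e
    exact (contAt_of_open (isOpenMap_jn hf) (continuous_jn hf).continuousAt
      (h.cont.continuousAt (h.op.mem_nhds he))).continuousWithinAt
  · obtain ⟨v, w, hv⟩ := hs p.2
    have h1 := h.psh ((p.1.1, v), (p.1.2, w))
    have h2 : ∀ z ∈ ((A.prod B).e p.1).target,
        jn D D' f ((((D.atl F).prod (D'.atl F')).e ((p.1.1, v), (p.1.2, w))).symm z) =
          (((prodD D D').atl E).e p).symm z := fun z hz => by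
      rw [read_jn hf (p := (p.1.1, v)) (r := (p.1.2, w)) hz, hv]
      rfl
    refine BT.PL.congr (BT.isOpen_chU ho p) (h1.mono fun z hz => ⟨hz.1, ?_⟩) fun z hz => ?_
    · rw [mem_preimage, mem_preimage, h2 z hz.1]
      exact hz.2
    · rw [BT.pot_apply, BT.pot_apply, h2 z hz.1]
      rfl

end jn

/-! ### the product of two Galois coverings -/

theorem bq_mk : Bq G G' (Prod.mk : G → G' → G × G') := fun _ _ _ _ => rfl

theorem bijective_jn_mk : Function.Bijective (jn D D' (Prod.mk : G → G' → G × G')) := by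
  refine ⟨fun x y h => ?_, surjective_jn bq_mk fun k => ⟨k.1, k.2, rfl⟩⟩
  obtain ⟨i, hi⟩ := A.cover (D.pr x.1)
  obtain ⟨j, hj⟩ := B.cover (D'.pr x.2)
  obtain ⟨h1, h2, h3⟩ := (jn_eq_iff bq_mk (p := (i, j)) hi hj).1 h
  exact Prod.ext (D.ext_co hi h1 (congrArg Prod.fst h3)) (D'.ext_co hj h2 (congrArg Prod.snd h3))

/-- the product of the coverings is the covering of the product -/
def prodH : D.cov G × D'.cov G' ≃ₜ (prodD D D').cov (G × G') :=
  (Equiv.ofBijective _ (bijective_jn_mk D D')).toHomeomorphOfContinuousOpen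
    (continuous_jn bq_mk) (isOpenMap_jn bq_mk)

theorem prodH_apply (x : D.cov G × D'.cov G') : prodH D D' x = jn D D' Prod.mk x := rfl

theorem prodH_deck (g : G) (h : G') (e : D.cov G) (e' : D'.cov G') :
    prodH D D' (g • e, h • e') = (g, h) • prodH D D' (e, e') := by
  obtain ⟨i, hi⟩ := A.cover (D.pr e)
  obtain ⟨j, hj⟩ := B.cover (D'.pr e')
  refine (prodD D D').ext_co (i := (i, j)) ⟨hi, hj⟩ rfl ?_
  rw [MonD.co_deck, prodH_apply, prodH_apply, co_jn bq_mk (p := (i, j)) hi hj,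
    co_jn bq_mk (p := (i, j)) hi hj, D.co_deck, D'.co_deck]
  rfl

theorem connected_prod [ConnectedSpace (D.cov G)] [ConnectedSpace (D'.cov G')] :
    ConnectedSpace ((prodD D D').cov (G × G')) :=
  (prodH D D').surjective.connectedSpace (prodH D D').continuous

/-! ### the quotient of `M × M` by the diagonal action -/

/-- the group with the two-sided action -/
def Bi (G : Type) : Type := G

/-- `G → Bi G` -/
def toBi : G ≃ Bi G := Equiv.refl G

instance : MulAction (G × G) (Bi G) where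
  smul g k := toBi (g.1 * toBi.symm k * g.2⁻¹)
  one_smul k := by
    change (1 : G) * toBi.symm k * 1⁻¹ = toBi.symm k
    simp
  mul_smul g h k := by
    change g.1 * h.1 * toBi.symm k * (g.2 * h.2)⁻¹ = g.1 * (h.1 * toBi.symm k * h.2⁻¹) * g.2⁻¹
    group

theorem smul_toBi (g h k : G) : (g, h) • toBi k = toBi (g * k * h⁻¹) := rfl

instance [Countable G] : Countable (Bi G) := ‹Countable G›

theorem bq_div : Bq G G fun v w : G => toBi (v * w⁻¹) := fun g h v w => by
  change g * v * (h * w)⁻¹ = g * (v * w⁻¹) * h⁻¹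
  group

theorem surj_div (k : Bi G) : ∃ v w : G, toBi (v * w⁻¹) = k := ⟨toBi.symm k, 1, by simp⟩

/-- `N = (M × M) / G` -/
abbrev Nq : Type := (prodD D D).cov (Bi G)

/-- its atlas -/
abbrev aN : Atl (n + n) (Nq D) := (prodD D D).atl (Bi G)

/-- its form -/
abbrev kN (H : KP A) : KP (aN D) := pullKP (prodD D D) (Bi G) (prodKP H H)

/-- the quotient map -/
def q : D.cov G × D.cov G → Nq D := jn D D fun v w : G => toBi (v * w⁻¹)

@[simp] theorem pr_q (x : D.cov G × D.cov G) : (prodD D D).pr (q D x) = (D.pr x.1, D.pr x.2) := rfl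

theorem co_q {i j : A.ι} {x : D.cov G × D.cov G} (hi : D.pr x.1 ∈ (A.e i).source)
    (hj : D.pr x.2 ∈ (A.e j).source) :
    (prodD D D).co (i, j) (q D x) = toBi (D.co i x.1 * (D.co j x.2)⁻¹) :=
  co_jn bq_div (p := (i, j)) hi hj

theorem continuous_q : Continuous (q D) := continuous_jn bq_div

theorem isOpenMap_q : IsOpenMap (q D) := isOpenMap_jn bq_div

theorem isLocalHomeomorph_q : IsLocalHomeomorph (q D) := isLocalHomeomorph_jn bq_div

theorem surjective_q : Function.Surjective (q D) := surjective_jn bq_div surj_div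

theorem isQuotientMap_q : IsQuotientMap (q D) :=
  (isOpenMap_q D).isQuotientMap (continuous_q D) (surjective_q D)

theorem holMap_q : HolMap ((D.atl G).prod (D.atl G)) (aN D) (q D) := holMap_jn bq_div

theorem hol_q (x : D.cov G × D.cov G) :
    ((HA.of (D.atl G)).prod (HA.of (D.atl G))).Hol (HA.of (aN D)) (q D) x := hol_jn bq_div x

theorem read_q {p r : A.ι × G} {z w : Cn n} (hz : z ∈ (A.e p.1).target)
    (hw : w ∈ (A.e r.1).target) : q D (((D.atl G).e p).symm z, ((D.atl G).e r).symm w) =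
      ((aN D).e ((p.1, r.1), toBi (p.2 * r.2⁻¹))).symm (app z w) := read_jn' bq_div hz hw

theorem q_mem {p r : A.ι × G} {x : D.cov G × D.cov G} (h1 : x.1 ∈ ((D.atl G).e p).source)
    (h2 : x.2 ∈ ((D.atl G).e r).source) :
    q D x ∈ ((aN D).e ((p.1, r.1), toBi (p.2 * r.2⁻¹))).source := jn_mem bq_div h1 h2

theorem e_q (p : (A.ι × A.ι) × Bi G) (x : D.cov G × D.cov G) :
    (aN D).e p (q D x) = app (A.e p.1.1 (D.pr x.1)) (A.e p.1.2 (D.pr x.2)) := rfl

theorem q_eq_iff {x y : D.cov G × D.cov G} : q D x = q D y ↔ ∃ g : G, g • x = y := by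
  obtain ⟨i, hi⟩ := A.cover (D.pr x.1)
  obtain ⟨j, hj⟩ := A.cover (D.pr x.2)
  refine (jn_eq_iff bq_div (p := (i, j)) hi hj).trans ⟨?_, ?_⟩
  · rintro ⟨h1, h2, h3⟩
    obtain ⟨g, hg⟩ := D.exists_deck h1
    refine ⟨g, Prod.ext hg (D.ext_co (i := j) hj h2 ?_)⟩
    have h4 : D.co i x.1 * (D.co j x.2)⁻¹ = D.co i y.1 * (D.co j y.2)⁻¹ := h3
    rw [← hg, D.co_deck, mul_assoc, mul_right_inj, ← mul_inv_rev, inv_inj] at h4
    rw [Prod.smul_snd, D.co_deck, h4, mul_inv_cancel_right]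
  · rintro ⟨g, rfl⟩
    refine ⟨rfl, rfl, ?_⟩
    simp only [Prod.smul_fst, Prod.smul_snd, D.co_deck]
    congr 1
    group

theorem q_smul (g : G) (x : D.cov G × D.cov G) : q D (g • x) = q D x :=
  ((q_eq_iff D).2 ⟨g, rfl⟩).symm

theorem q_deck (g : G) (e e' : D.cov G) : q D (g • e, g • e') = q D (e, e') := q_smul D g (e, e')

theorem q_left_inj {e e' e'' : D.cov G} (h : q D (e, e') = q D (e, e'')) : e' = e'' := by
  obtain ⟨g, hg⟩ := (q_eq_iff D).1 h
  have h1 : g = 1 := D.deck_free (congrArg Prod.fst hg)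
  rw [h1, one_smul] at hg
  exact congrArg Prod.snd hg

theorem preimage_image_q {Z : Set (D.cov G × D.cov G)} (hZ : ∀ g : G, ∀ x ∈ Z, g • x ∈ Z) :
    q D ⁻¹' (q D '' Z) = Z := by
  refine Subset.antisymm ?_ (subset_preimage_image _ _)
  rintro y ⟨x, hx, h⟩
  obtain ⟨g, rfl⟩ := (q_eq_iff D).1 h
  exact hZ g x hx

theorem connected_N [ConnectedSpace (D.cov G)] : ConnectedSpace (Nq D) :=
  (surjective_q D).connectedSpace (continuous_q D)

theorem pos_N {H : KP A} (hH : H.Pos) : (kN D H).Pos := pos_pull _ _ (pos_prod hH hH)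

theorem slow_N [CompactSpace X] [T2Space X] [Finite A.ι] [Countable G] (P : Part A) {H : KP A}
    (hH : H.Pos) : Slow (kN D H) := slow_pull _ _ (R272.Pr_414.part P P) (pos_prod hH hH)

theorem qp_q {H : KP A} {U : Set (Nq D)} {φ : Nq D → ℝ} (h : QP (kN D H) U φ) :
    QP (prodKP (pullKP D G H) (pullKP D G H)) (q D ⁻¹' U) fun x => φ (q D x) := qp_jn bq_div h

theorem qp_of_q {H : KP A} {U : Set (Nq D)} {φ : Nq D → ℝ}
    (h : QP (prodKP (pullKP D G H) (pullKP D G H)) (q D ⁻¹' U) fun x => φ (q D x)) :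
    QP (kN D H) U φ := qp_of_jn bq_div surj_div h

/-- descent of an invariant function -/
def dq {W : Type*} (φ : D.cov G × D.cov G → W) (y : Nq D) : W :=
  φ (Function.surjInv (surjective_q D) y)

theorem dq_q {W : Type*} {φ : D.cov G × D.cov G → W} (h : ∀ (g : G) x, φ (g • x) = φ x)
    (x : D.cov G × D.cov G) : dq D φ (q D x) = φ x := by
  obtain ⟨g, hg⟩ := (q_eq_iff D).1 (Function.surjInv_eq (surjective_q D) (q D x))
  rw [dq, ← h g, hg]

/-- the two-point function of part C is the exhaustion of `N` -/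
theorem ip_q [Finite A.ι] [ConnectedSpace (D.cov G)] (P : Part A) (e e' : D.cov G) :
    Ip (prodD D D) (R272.Pr_414.part P P) (fun k : Bi G => wl D (toBi.symm k)) (q D (e, e')) =
      dd D P e e' := ip_jn bq_div P P _ (e, e')

/-! ### the diagonal, properness -/

/-- the diagonal -/
def Dg : Set (Nq D) := range fun e => q D (e, e)

theorem q_mem_Dg {e e' : D.cov G} : q D (e, e') ∈ Dg D ↔ e = e' := by
  refine ⟨fun ⟨a, ha⟩ => ?_, fun h => ⟨e, by rw [← h]⟩⟩
  obtain ⟨g, hg⟩ := (q_eq_iff D).1 ha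
  exact (congrArg Prod.fst hg).symm.trans (congrArg Prod.snd hg)

section cpt

variable [CompactSpace X] [T2Space X] [Finite A.ι]

/-- an invariant set which is proper over the first factor has compact image -/
theorem isCompact_image_q {Z : Set (D.cov G × D.cov G)} (hZ : ∀ g : G, ∀ x ∈ Z, g • x ∈ Z)
    (hp : ∀ L, IsCompact L → IsCompact (Z ∩ Prod.fst ⁻¹' L)) : IsCompact (q D '' Z) := by
  obtain ⟨L, hL, h⟩ := exists_cpt_sheet D (1 : G)
  convert (hp L hL).image (continuous_q D) using 1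
  refine Subset.antisymm ?_ (image_mono inter_subset_left)
  rintro _ ⟨x, hx, rfl⟩
  obtain ⟨i, hi⟩ := A.cover (D.pr x.1)
  refine ⟨D.co i x.1 • x, ⟨hZ _ x hx, h i ⟨hi, ?_⟩⟩, q_smul D _ x⟩
  rw [Prod.smul_fst, D.co_deck, mul_inv_cancel]

theorem isCompact_Dg : IsCompact (Dg D) := by
  have h := isCompact_image_q D (Z := {x | x.1 = x.2}) (fun g x hx => congrArg (g • ·) hx)
    fun L hL => (hL.prod hL).of_isClosed_subset
      ((isClosed_eq continuous_fst continuous_snd).inter (hL.isClosed.preimage continuous_fst))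
      fun x hx => ⟨hx.2, hx.1 ▸ hx.2⟩
  convert h using 1
  ext y
  exact ⟨fun ⟨e, he⟩ => ⟨(e, e), rfl, he⟩, fun ⟨x, hx, he⟩ => he ▸ (q_mem_Dg D).2 hx⟩

/-- the preimage of a compact set is proper over the first factor -/
theorem exists_snd {K : Set (Nq D)} (hK : IsCompact K) {L : Set (D.cov G)} (hL : IsCompact L) :
    ∃ L', IsCompact L' ∧ ∀ x, q D x ∈ K → x.1 ∈ L → x.2 ∈ L' := by
  obtain ⟨L', h1, h2⟩ := exists_cpt_sheets D
    ((finite_co (prodD D D) hK).image2 (fun k v => (toBi.symm k)⁻¹ * v) (finite_co D hL))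
  refine ⟨L', h1, fun x hx hx' => ?_⟩
  obtain ⟨i, hi⟩ := A.cover (D.pr x.1)
  obtain ⟨j, hj⟩ := A.cover (D.pr x.2)
  refine h2 j _ ⟨_, ⟨_, hx, (i, j), ⟨hi, hj⟩, co_q D hi hj⟩, _, ⟨_, hx', i, hi, rfl⟩, rfl⟩ ⟨hj, ?_⟩
  simp

theorem exists_fst {K : Set (Nq D)} (hK : IsCompact K) {L : Set (D.cov G)} (hL : IsCompact L) :
    ∃ L', IsCompact L' ∧ ∀ x, q D x ∈ K → x.2 ∈ L → x.1 ∈ L' := by
  obtain ⟨L', h1, h2⟩ := exists_cpt_sheets D
    ((finite_co (prodD D D) hK).image2 (fun k v => toBi.symm k * v) (finite_co D hL))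
  refine ⟨L', h1, fun x hx hx' => ?_⟩
  obtain ⟨i, hi⟩ := A.cover (D.pr x.1)
  obtain ⟨j, hj⟩ := A.cover (D.pr x.2)
  refine h2 i _ ⟨_, ⟨_, hx, (i, j), ⟨hi, hj⟩, co_q D hi hj⟩, _, ⟨_, hx', j, hj, rfl⟩, rfl⟩ ⟨hi, ?_⟩
  simp

theorem isCompact_fst {K : Set (Nq D)} (hK : IsCompact K) {L : Set (D.cov G)} (hL : IsCompact L) :
    IsCompact (q D ⁻¹' K ∩ Prod.fst ⁻¹' L) := by
  obtain ⟨L', h1, h2⟩ := exists_snd D hK hL
  exact (hL.prod h1).of_isClosed_subset ((hK.isClosed.preimage (continuous_q D)).inter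
    (hL.isClosed.preimage continuous_fst)) fun x hx => ⟨hx.2, h2 x hx.1 hx.2⟩

theorem isCompact_snd {K : Set (Nq D)} (hK : IsCompact K) {L : Set (D.cov G)} (hL : IsCompact L) :
    IsCompact (q D ⁻¹' K ∩ Prod.snd ⁻¹' L) := by
  obtain ⟨L', h1, h2⟩ := exists_fst D hK hL
  exact (h1.prod hL).of_isClosed_subset ((hK.isClosed.preimage (continuous_q D)).inter
    (hL.isClosed.preimage continuous_snd)) fun x hx => ⟨h2 x hx.1 hx.2, hx.2⟩

end cpt

/-! ### the involution -/

theorem q_swap {x y : D.cov G × D.cov G} (h : q D x = q D y) : q D x.swap = q D y.swap := by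
  obtain ⟨g, rfl⟩ := (q_eq_iff D).1 h
  exact (q_smul D g x.swap).symm

theorem dq_swap (x : D.cov G × D.cov G) : dq D (fun x => q D x.swap) (q D x) = q D x.swap :=
  dq_q D (φ := fun x => q D x.swap) (fun g x => q_smul D g x.swap) x

/-- the involution of `N` -/
def sw : Nq D ≃ₜ Nq D where
  toFun := dq D fun x => q D x.swap
  invFun := dq D fun x => q D x.swap
  left_inv y := by obtain ⟨x, rfl⟩ := surjective_q D y; rw [dq_swap, dq_swap, Prod.swap_swap]
  right_inv y := by obtain ⟨x, rfl⟩ := surjective_q D y; rw [dq_swap, dq_swap, Prod.swap_swap]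
  continuous_toFun := (isQuotientMap_q D).continuous_iff.2
    (((continuous_q D).comp continuous_swap).congr fun x => (dq_swap D x).symm)
  continuous_invFun := (isQuotientMap_q D).continuous_iff.2
    (((continuous_q D).comp continuous_swap).congr fun x => (dq_swap D x).symm)

theorem sw_q (x : D.cov G × D.cov G) : sw D (q D x) = q D x.swap := dq_swap D x

theorem qp_sw {H : KP A} {U : Set (Nq D)} {φ : Nq D → ℝ} (h : QP (kN D H) U φ) :
    QP (kN D H) (sw D ⁻¹' U) fun y => φ (sw D y) := by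
  refine qp_of_q D ?_
  have h1 := qp_swap (qp_q D h)
  simp only [sw_q]
  convert h1 using 1
  ext x
  simp only [mem_preimage, sw_q]

end

end Crest.Agent.X261.Cov.P
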