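import Crest.Agent.X261.Cov.P
import Crest.Agent.X261.Cov.U
import Crest.Agent.X261.Ans.Man3

/-!
# X261, package COV (helper3), part Q: analytic sets on `M × M` and on `N = (M × M) / G`

* `sj D D' p r` : the local inverse of `jn D D' f` on a product of sheets, `bih_jn`, `bih_q`;
* `an_q_iff`, `an_image_q`, `cov_q`, `reg_q` : transfer of analytic sets;
* `iso_sw`, `holMap_sw` : the involution is an isometry;
* `ubN` : uniform balls on `N`.
-/

set_option autoImplicit false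
set_option linter.unusedSectionVars false

open Set Filter Topology
open scoped Pointwise

namespace Crest.Agent.X261.Cov.Q

open Crest.Agent.R275.Geo Crest.Agent.R275.Prod363
open Crest.Agent.R273.UCov_914 Crest.Agent.R273.Map_835
open Crest.Agent.R281.Kp_487 (KP)
open Crest.Agent.X261.BT (Iso ovI)
open Crest.Agent.X261.Ans (HA)
open Crest.Agent.X261.Ans.Brg
open Crest.Agent.X261.Cov.K Crest.Agent.X261.Cov.P Crest.Agent.X261.Cov.U

noncomputable section

variable {n m : ℕ} {X Y : Type} [TopologicalSpace X] [TopologicalSpace Y]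
variable {A : Atl n X} {B : Atl m Y}
variable {G G' : Type} [Group G] [Group G'] (D : MonD A G) (D' : MonD B G')

section jn

variable {F F' E : Type} [MulAction G F] [MulAction G' F'] [MulAction (G × G') E]

/-- the local inverse of `jn` -/
def sj (p : A.ι × F) (r : B.ι × F') (y : (prodD D D').cov E) : D.cov F × D'.cov F' :=
  (D.pt p.1 p.2 ((prodD D D').pr y).1, D'.pt r.1 r.2 ((prodD D D').pr y).2)

variable {D D'} {f : F → F' → E}

theorem hol_sj {p : A.ι × F} {r : B.ι × F'} {y : (prodD D D').cov E}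
    (hy : (prodD D D').pr y ∈ ((A.prod B).e (p.1, r.1)).source) :
    (HA.of ((prodD D D').atl E)).Hol ((HA.of (D.atl F)).prod (HA.of (D'.atl F')))
      (sj D D' p r) y := by
  have h0 := (hol_ofProd ((prodD D D').pr y)).comp (hol_pr (prodD D D') y)
  exact ((hol_pt D p.2 hy.1).comp_of_eq h0.fst rfl).prodMk
    ((hol_pt D' r.2 hy.2).comp_of_eq h0.snd rfl)

theorem bih_jn (hf : Bq G G' f) (p : A.ι × F) (r : B.ι × F') :
    HA.Bih ((HA.of (D.atl F)).prod (HA.of (D'.atl F'))) (HA.of ((prodD D D').atl E))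
      (D.sheet p.1 p.2 ×ˢ D'.sheet r.1 r.2) ((prodD D D').sheet (p.1, r.1) (f p.2 r.2))
      (jn D D' f) (sj D D' p r) where
  opU := (D.isOpen_sheet _ _).prod (D'.isOpen_sheet _ _)
  opV := (prodD D D').isOpen_sheet _ _
  hg x _ := hol_jn hf x
  hf _ hy := hol_sj hy.1
  mg _ hx := jn_mem hf hx.1 hx.2
  mf _ hy := ⟨D.pt_mem_sheet _ hy.1.1, D'.pt_mem_sheet _ hy.1.2⟩
  fg _ hx := Prod.ext (D.pt_of_mem hx.1) (D'.pt_of_mem hx.2)
  gf y hy := by
    rw [sj, jn_pt hf _ _ hy.1.1 hy.1.2]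
    exact (prodD D D').pt_of_mem hy

theorem exists_bih (hf : Bq G G' f) (x : D.cov F × D'.cov F') :
    ∃ U V σ, x ∈ U ∧ HA.Bih ((HA.of (D.atl F)).prod (HA.of (D'.atl F')))
      (HA.of ((prodD D D').atl E)) U V (jn D D' f) σ := by
  obtain ⟨i, hi⟩ := A.cover (D.pr x.1)
  obtain ⟨j, hj⟩ := B.cover (D'.pr x.2)
  exact ⟨_, _, _, mk_mem_prod (D.mem_sheet_co hi) (D'.mem_sheet_co hj),
    bih_jn hf (i, D.co i x.1) (j, D'.co j x.2)⟩

theorem subm_jn (hf : Bq G G' f) (x : D.cov F × D'.cov F') :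
    ((HA.of (D.atl F)).prod (HA.of (D'.atl F'))).Subm (HA.of ((prodD D D').atl E))
      (jn D D' f) x :=
  let ⟨_, _, _, h1, h2⟩ := exists_bih hf x
  h2.subm h1

theorem anAt_jn_iff (hf : Bq G G' f) {Z : Set ((prodD D D').cov E)} {x : D.cov F × D'.cov F'} :
    ((HA.of (D.atl F)).prod (HA.of (D'.atl F'))).AnAt (jn D D' f ⁻¹' Z) x ↔
      (HA.of ((prodD D D').atl E)).AnAt Z (jn D D' f x) := by
  refine ⟨fun h => ?_, fun h => h.preimage (hol_jn hf x)⟩
  obtain ⟨U, V, σ, h1, h2⟩ := exists_bih hf x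
  rw [← h2.fg x h1] at h
  refine (h.preimage (h2.hf _ (h2.mg h1))).congr ?_
  filter_upwards [h2.opV.mem_nhds (h2.mg h1)] with y hy
  rw [mem_preimage, mem_preimage, h2.gf y hy]

theorem reg_jn_iff (hf : Bq G G' f) {Z : Set ((prodD D D').cov E)} {d : ℕ}
    {x : D.cov F × D'.cov F'} :
    ((HA.of (D.atl F)).prod (HA.of (D'.atl F'))).Reg (jn D D' f ⁻¹' Z) d x ↔
      (HA.of ((prodD D D').atl E)).Reg Z d (jn D D' f x) := by
  obtain ⟨U, V, σ, h1, h2⟩ := exists_bih hf x
  exact h2.symm.reg_iff h1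

end jn

/-! ### the quotient `N` -/

/-- the atlas of `M × M` in the language of the package ANS -/
abbrev aM : HA (Cn n × Cn n) (D.cov G × D.cov G) := (HA.of (D.atl G)).prod (HA.of (D.atl G))

theorem bih_q (p r : A.ι × G) : HA.Bih (aM D) (HA.of (aN D)) (D.sheet p.1 p.2 ×ˢ D.sheet r.1 r.2)
    ((prodD D D).sheet (p.1, r.1) (toBi (p.2 * r.2⁻¹))) (q D) (sj D D p r) := bih_jn bq_div p r

theorem subm_q (x : D.cov G × D.cov G) : (aM D).Subm (HA.of (aN D)) (q D) x := subm_jn bq_div x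

theorem anAt_q_iff {Z : Set (Nq D)} {x : D.cov G × D.cov G} :
    (aM D).AnAt (q D ⁻¹' Z) x ↔ (HA.of (aN D)).AnAt Z (q D x) := anAt_jn_iff bq_div

theorem reg_q_iff {Z : Set (Nq D)} {d : ℕ} {x : D.cov G × D.cov G} :
    (aM D).Reg (q D ⁻¹' Z) d x ↔ (HA.of (aN D)).Reg Z d (q D x) := reg_jn_iff bq_div

theorem an_q_iff {Z : Set (Nq D)} : (aM D).An univ (q D ⁻¹' Z) ↔ (HA.of (aN D)).An univ Z := by
  refine ⟨fun h y _ => ?_, fun h x _ => (anAt_q_iff D).2 (h _ (mem_univ _))⟩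
  obtain ⟨x, rfl⟩ := surjective_q D y
  exact (anAt_q_iff D).1 (h x (mem_univ _))

theorem an_image_q {Z : Set (D.cov G × D.cov G)} (hZ : ∀ g : G, ∀ x ∈ Z, g • x ∈ Z)
    (h : (aM D).An univ Z) : (HA.of (aN D)).An univ (q D '' Z) :=
  (an_q_iff D).1 (by rwa [preimage_image_q D hZ])

theorem an_Dg [T2Space X] : (HA.of (aN D)).An univ (Dg D) := by
  refine (an_q_iff D).1 fun x _ => (HA.anAt_diag _ x).congr (Eventually.of_forall fun y => ?_)
  exact (q_mem_Dg D).symm

theorem cov_q [Countable A.ι] [Countable G] {Z : Set (Nq D)} {k : ℕ} :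
    (aM D).Cov k (q D ⁻¹' Z) ↔ (HA.of (aN D)).Cov k Z := by
  have : Countable (aM D).ι := inferInstanceAs (Countable ((A.ι × G) × A.ι × G))
  constructor
  · intro h
    have h1 := h.image fun x _ => hol_q D x
    rwa [image_preimage_eq _ (surjective_q D)] at h1
  · intro h
    refine HA.cov_of_local fun x _ => ?_
    obtain ⟨U, V, σ, h1, h2⟩ := exists_bih bq_div x
    exact ⟨U, h2.opU.mem_nhds h1, (h2.symm.cov h).sub fun y hy => ⟨hy.2, hy.1⟩⟩

theorem smul_mem_preimage_q (Z : Set (Nq D)) (g : G) {x : D.cov G × D.cov G} :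
    g • x ∈ q D ⁻¹' Z ↔ x ∈ q D ⁻¹' Z := by rw [mem_preimage, q_smul, mem_preimage]

/-! ### the involution -/

theorem pr_sw (y : Nq D) : (prodD D D).pr (sw D y) = ((prodD D D).pr y).swap := by
  obtain ⟨x, rfl⟩ := surjective_q D y
  rw [sw_q]
  rfl

theorem sw_sw (y : Nq D) : sw D (sw D y) = y := (sw D).left_inv y

theorem holMap_sw : HolMap (aN D) (aN D) (sw D) := by
  refine ⟨(sw D).continuous, fun p r => ?_⟩
  simp only [MonD.atl_e, MonD.chart_apply, pr_sw]
  refine ((R272.Pr_414.swap A A).hol p.1 r.1).mono fun z hz => ⟨hz.1, ?_⟩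
  have := hz.2.1
  rwa [pr_sw] at this

theorem iso_sw (H : KP A) : Iso (kN D H) (sw D) := by
  refine ⟨(holMap_sw D).hol, (holMap_sw D).hol, fun p r z hz => ?_⟩
  have h1 : z ∈ (A.prod A).ov p.1 (r.1.2, r.1.1) := by
    have := hz.2.1
    rw [pr_sw] at this
    exact ⟨hz.1, this.2, this.1⟩
  simp only [u_pull, pr_sw]
  convert (prodKP H H).tr p.1 (r.1.2, r.1.1) z h1 using 3
  exact congrArg₂ _ rfl (add_comm _ _)

/-! ### uniform balls -/

theorem exists_ubN [CompactSpace X] [T2Space X] [Finite A.ι] {H : KP A} (hH : H.Pos) :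
    Nonempty (UB (kN D H)) := exists_ub _ _ (pos_prod hH hH)

theorem locallyCompact_N [CompactSpace X] [T2Space X] [Finite A.ι] : LocallyCompactSpace (Nq D) :=
  B.locallyCompact _

theorem secondCountable_N [Countable A.ι] [Countable G] : SecondCountableTopology (Nq D) :=
  MonD.secondCountable _ _

theorem sigmaCompact_N [CompactSpace X] [T2Space X] [Finite A.ι] [Countable G] :
    SigmaCompactSpace (Nq D) := MonD.sigmaCompact _ _

end

end Crest.Agent.X261.Cov.Q
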